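import Vale.Agent.P297.H288.Z3Pts
import Vale.Agent.P297.Gen.Setup
import Vale.Agent.P297.H72.Plc

/-!
More on the generic points of the surface: the coordinates `s, u, v` are automatically
non-special, equivariance for all points, the symmetry of the family.
-/

set_option linter.unusedSectionVars false
set_option linter.style.haveILetI false
set_option linter.unusedSimpArgs false

open IntermediateField

namespace Vale.Agent.P297.H288

open Vale.Agent.P297 Vale.Agent.P297.H777 Vale.Agent.P297.Gen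

section poly

open Polynomial

theorem A0_C (P : Par) (u : ℂ) : A0 P (C u : ℂ[X]) = C (A0 P u) := by
  have := map_A0 P (Algebra.ofId ℂ ℂ[X]) u
  simpa [Algebra.ofId_apply] using this.symm

theorem A2_C (P : Par) (u : ℂ) : A2 P (C u : ℂ[X]) = C (A2 P u) := by
  have := map_A2 P (Algebra.ofId ℂ ℂ[X]) u
  simpa [Algebra.ofId_apply] using this.symm

theorem B0_C (P : Par) (u : ℂ) : B0 P (C u : ℂ[X]) = C (B0 P u) := by
  have := map_B0 P (Algebra.ofId ℂ ℂ[X]) u
  simpa [Algebra.ofId_apply] using this.symm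

theorem B2_C (P : Par) (u : ℂ) : B2 P (C u : ℂ[X]) = C (B2 P u) := by
  have := map_B2 P (Algebra.ofId ℂ ℂ[X]) u
  simpa [Algebra.ofId_apply] using this.symm

theorem fU_C (P : Par) (u v : ℂ) : fU P X (C u) (C v) =
    C (A0 P u) * X + C (3 * B0 P u - (u + v) * A0 P u) := by
  simp only [fU, A0_C, B0_C, C_sub, C_mul, C_add, map_ofNat]
  ring

theorem fV_C (P : Par) (u v : ℂ) : fV P X (C u) (C v) =
    C (A2 P v) * X + C (3 * B2 P v - (u + v) * A2 P v) := by
  simp only [fV, A2_C, B2_C, C_sub, C_mul, C_add, map_ofNat]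
  ring

/-- The equation has degree four in `s`. -/
theorem natDegree_fH (P : Par) (u v : ℂ) (hu : A0 P u ≠ 0) (hv : A2 P v ≠ 0) :
    (fH P X (C u) (C v) : ℂ[X]).natDegree = 4 := by
  obtain ⟨α0, hα0⟩ : ∃ α, α = A0 P u := ⟨_, rfl⟩
  obtain ⟨α2, hα2⟩ : ∃ α, α = A2 P v := ⟨_, rfl⟩
  have hQ : qQ X (C u) (C v) = C 1 * X ^ 2 + C (u + v + 3) * X + C (u ^ 2 + v ^ 2 - u * v) := by
    simp only [qQ, C_sub, C_mul, C_add, C_pow, map_ofNat, C_1]
    ring
  have d0 : (fU P X (C u) (C v) : ℂ[X]).natDegree = 1 := by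
    rw [fU_C]
    exact natDegree_linear hu
  have d2 : (fV P X (C u) (C v) : ℂ[X]).natDegree = 1 := by
    rw [fV_C]
    exact natDegree_linear hv
  have dQ : (qQ X (C u) (C v) : ℂ[X]).natDegree = 2 := by
    rw [hQ]
    exact natDegree_quadratic one_ne_zero
  have n0 : (fU P X (C u) (C v) : ℂ[X]) ≠ 0 := by
    intro h
    rw [h, natDegree_zero] at d0
    omega
  have n2 : (fV P X (C u) (C v) : ℂ[X]) ≠ 0 := by
    intro h
    rw [h, natDegree_zero] at d2
    omega
  have nQ : (qQ X (C u) (C v) : ℂ[X]) ≠ 0 := by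
    intro h
    rw [h, natDegree_zero] at dQ
    omega
  have d4 : (fU P X (C u) (C v) * fV P X (C u) (C v) * qQ X (C u) (C v) : ℂ[X]).natDegree = 4 := by
    rw [natDegree_mul (mul_ne_zero n0 n2) nQ, natDegree_mul n0 n2, d0, d2, dQ]
  have d1 : ((fU P X (C u) (C v) - fV P X (C u) (C v)) *
      (A0 P (C u) * B2 P (C v) - A2 P (C v) * B0 P (C u)) : ℂ[X]).natDegree ≤ 1 := by
    have e : (A0 P (C u) * B2 P (C v) - A2 P (C v) * B0 P (C u) : ℂ[X]) =
        C (A0 P u * B2 P v - A2 P v * B0 P u) := by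
      rw [A0_C, A2_C, B0_C, B2_C]
      simp only [C_sub, C_mul]
    rw [e]
    refine (natDegree_mul_le).trans ?_
    rw [natDegree_C, add_zero]
    refine (natDegree_sub_le _ _).trans ?_
    rw [d0, d2]
    simp
  rw [fH, natDegree_sub_eq_right_of_natDegree_lt, d4]
  rw [d4]
  omega

theorem exists_ne (P : Par) : ∃ u v : ℂ, A0 P u ≠ 0 ∧ A2 P v ≠ 0 := by
  have key : ∀ a b : ℂ, ∃ u : ℂ, 3 * u ^ 2 - a * u - b ≠ 0 := by
    intro a b
    by_contra h
    push Not at h
    have h0 := h 0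
    have h1 := h 1
    have h2 := h (-1)
    have h3 : (6 : ℂ) = 0 := by linear_combination h1 + h2 - 2 * h0
    norm_num at h3
  obtain ⟨u, hu⟩ := key (P.z 3) (P.z 1)
  obtain ⟨v, hv⟩ := key (P.z 2) (P.z 0)
  exact ⟨u, v, hu, hv⟩

/-- A polynomial of degree less than four in `s` is not divisible by the equation. -/
theorem not_dvd_of_degree (P : Par) (f : MvPolynomial (Fin 3) ℂ)
    (hf : ∀ u v : ℂ, A0 P u ≠ 0 → A2 P v ≠ 0 →
      (MvPolynomial.aeval (![X, C u, C v] : Fin 3 → ℂ[X]) f).natDegree < 4 ∧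
      MvPolynomial.aeval (![X, C u, C v] : Fin 3 → ℂ[X]) f ≠ 0) : ¬ hP P ∣ f := by
  rintro ⟨g, rfl⟩
  obtain ⟨u, v, hu, hv⟩ := exists_ne P
  obtain ⟨h1, h2⟩ := hf u v hu hv
  rw [map_mul, aeval_hP] at h1 h2
  have h5 : (fH P X (C u) (C v) : ℂ[X]) ≠ 0 := left_ne_zero_of_mul h2
  have h6 : (fH P ((![X, C u, C v] : Fin 3 → ℂ[X]) 0) ((![X, C u, C v] : Fin 3 → ℂ[X]) 1)
    ((![X, C u, C v] : Fin 3 → ℂ[X]) 2)) = fH P X (C u) (C v) := rfl
  rw [h6] at h1 h2
  rw [natDegree_mul h5 (right_ne_zero_of_mul h2), natDegree_fH P u v hu hv] at h1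
  omega

theorem not_dvd_fV (P : Par) : ¬ hP P ∣
    (fV P (MvPolynomial.X 0) (MvPolynomial.X 1) (MvPolynomial.X 2) : MvPolynomial (Fin 3) ℂ) := by
  refine not_dvd_of_degree P _ fun u v hu hv => ?_
  rw [map_fV]
  simp only [MvPolynomial.aeval_X]
  have h1 : (fV P X (C u) (C v) : ℂ[X]).natDegree = 1 := by
    rw [fV_C]
    exact natDegree_linear hv
  refine ⟨?_, ?_⟩
  · change (fV P X (C u) (C v) : ℂ[X]).natDegree < 4
    omega
  · change (fV P X (C u) (C v) : ℂ[X]) ≠ 0
    intro h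
    rw [h, natDegree_zero] at h1
    omega

theorem not_dvd_fU (P : Par) : ¬ hP P ∣
    (fU P (MvPolynomial.X 0) (MvPolynomial.X 1) (MvPolynomial.X 2) : MvPolynomial (Fin 3) ℂ) := by
  refine not_dvd_of_degree P _ fun u v hu hv => ?_
  rw [map_fU]
  simp only [MvPolynomial.aeval_X]
  have h1 : (fU P X (C u) (C v) : ℂ[X]).natDegree = 1 := by
    rw [fU_C]
    exact natDegree_linear hu
  refine ⟨?_, ?_⟩
  · change (fU P X (C u) (C v) : ℂ[X]).natDegree < 4
    omega
  · change (fU P X (C u) (C v) : ℂ[X]) ≠ 0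
    intro h
    rw [h, natDegree_zero] at h1
    omega

end poly

section closed

open Polynomial

variable {N : Type} [Field N] [Algebra ℂ N]

/-- A root of a polynomial of degree at most three over a closed field. -/
theorem mem_of_cubic {M : IntermediateField ℂ N} (hM : ∀ u : N, IsAlgebraic M u → u ∈ M)
    {a b c d x : N} (ha : a ∈ M) (hb : b ∈ M) (hc : c ∈ M) (hd : d ∈ M)
    (h : a * x ^ 3 + b * x ^ 2 + c * x + d = 0) (hne : a ≠ 0 ∨ b ≠ 0 ∨ c ≠ 0 ∨ d ≠ 0) : x ∈ M := by
  apply hM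
  refine isAlgebraic_of_coeff (p := C a * X ^ 3 + C b * X ^ 2 + C c * X + C d) ?_ ?_ ?_
  · intro n
    simp only [coeff_add, coeff_C_mul, coeff_X_pow, coeff_X, coeff_C]
    refine add_mem (add_mem (add_mem (mul_mem ha ?_) (mul_mem hb ?_)) (mul_mem hc ?_)) ?_
    all_goals
      split_ifs
      first
        | exact one_mem _
        | exact hd
      exact zero_mem _
  · intro h0
    have e3 := congrArg (fun q : N[X] => q.coeff 3) h0
    have e2 := congrArg (fun q : N[X] => q.coeff 2) h0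
    have e1 := congrArg (fun q : N[X] => q.coeff 1) h0
    have e0 := congrArg (fun q : N[X] => q.coeff 0) h0
    simp [coeff_X, coeff_C] at e3 e2 e1 e0
    rcases hne with h | h | h | h
    · exact h e3
    · exact h e2
    · exact h e1
    · exact h e0
  · simp only [eval_add, eval_mul, eval_pow, eval_C, eval_X]
    exact h

theorem three_mem (M : IntermediateField ℂ N) : (3 : N) ∈ M := by
  have h : ((3 : ℕ) : N) ∈ M := _root_.natCast_mem M 3
  exact_mod_cast h

theorem const_mem (M : IntermediateField ℂ N) (c : ℂ) : algebraMap ℂ N c ∈ M := M.algebraMap_mem c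

theorem A2_mem (M : IntermediateField ℂ N) (P : Par) {v : N} (hv : v ∈ M) : A2 P v ∈ M :=
  sub_mem (sub_mem (mul_mem (three_mem M) (pow_mem hv 2)) (mul_mem (const_mem M _) hv))
    (const_mem M _)

theorem A0_mem (M : IntermediateField ℂ N) (P : Par) {v : N} (hv : v ∈ M) : A0 P v ∈ M :=
  sub_mem (sub_mem (mul_mem (three_mem M) (pow_mem hv 2)) (mul_mem (const_mem M _) hv))
    (const_mem M _)

theorem B2_mem (M : IntermediateField ℂ N) (P : Par) {v : N} (hv : v ∈ M) : B2 P v ∈ M :=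
  sub_mem (sub_mem (pow_mem hv 3) (mul_mem (const_mem M _) hv)) (const_mem M _)

theorem B0_mem (M : IntermediateField ℂ N) (P : Par) {v : N} (hv : v ∈ M) : B0 P v ∈ M :=
  sub_mem (sub_mem (pow_mem hv 3) (mul_mem (const_mem M _) hv)) (const_mem M _)

theorem qQ_mem (M : IntermediateField ℂ N) {s u v : N} (hs : s ∈ M) (hu : u ∈ M) (hv : v ∈ M) :
    qQ s u v ∈ M :=
  add_mem (sub_mem (add_mem (add_mem (add_mem (add_mem (pow_mem hs 2) (pow_mem hu 2))
    (pow_mem hv 2)) (mul_mem hs hu)) (mul_mem hs hv)) (mul_mem hu hv)) (mul_mem (three_mem M) hs)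

theorem fU_mem (M : IntermediateField ℂ N) (P : Par) {s u v : N} (hs : s ∈ M) (hu : u ∈ M)
    (hv : v ∈ M) : fU P s u v ∈ M :=
  add_mem (mul_mem (three_mem M) (B0_mem M P hu)) (mul_mem (sub_mem (sub_mem hs hu) hv)
    (A0_mem M P hu))

theorem fV_mem (M : IntermediateField ℂ N) (P : Par) {s u v : N} (hs : s ∈ M) (hu : u ∈ M)
    (hv : v ∈ M) : fV P s u v ∈ M :=
  add_mem (mul_mem (three_mem M) (B2_mem M P hv)) (mul_mem (sub_mem (sub_mem hs hu) hv)
    (A2_mem M P hv))

/-- The coordinate `τ` is algebraic over `s, u, v`, unless these are constants. -/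
theorem tau_mem {P : Par} {y : Fin 4 → N} (hA : eA P (y 0) (y 1) (y 2) (y 3) = 0)
    (hB : eB P (y 0) (y 1) (y 2) (y 3) = 0) (h1 : 1 + y 3 ≠ 0)
    {M : IntermediateField ℂ N} (hM : ∀ u : N, IsAlgebraic M u → u ∈ M)
    (hs : y 0 ∈ M) (hu : y 1 ∈ M) (hv : y 2 ∈ M)
    {L : IntermediateField ℂ N} (hL : ∀ u : N, IsAlgebraic L u → u ∈ L) :
    y 3 ∈ M ∨ (y 0 ∈ L ∧ y 1 ∈ L ∧ y 2 ∈ L) := by
  haveI : CharZero N := charZero_of_injective_algebraMap (algebraMap ℂ N).injective
  have hl : y 3 * fV P (y 0) (y 1) (y 2) + fU P (y 0) (y 1) (y 2) = 0 := by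
    have h2 := three_eB P (y 0) (y 1) (y 2) (y 3)
    rw [hA, hB, mul_zero, mul_zero, add_zero] at h2
    exact (mul_eq_zero.1 h2.symm).resolve_left h1
  by_cases h2 : fV P (y 0) (y 1) (y 2) = 0
  swap
  · left
    have h3 : y 3 = -(fU P (y 0) (y 1) (y 2) / fV P (y 0) (y 1) (y 2)) := by
      field_simp
      linear_combination hl
    rw [h3]
    exact neg_mem (div_mem (fU_mem M P hs hu hv) (fV_mem M P hs hu hv))
  simp only [eA] at hA
  by_cases hz : A2 P (y 2) = 0 ∧ A0 P (y 1) = 0 ∧ qQ (y 0) (y 1) (y 2) = 0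
  · right
    obtain ⟨z2, z0, zQ⟩ := hz
    have hv' : y 2 ∈ L := by
      refine mem_of_cubic hL (a := 0) (b := 3) (c := -algebraMap ℂ N (P.z 2))
        (d := -algebraMap ℂ N (P.z 0)) (zero_mem _) (three_mem L) (neg_mem (const_mem L _))
        (neg_mem (const_mem L _)) ?_ (Or.inr (Or.inl three_ne_zero))
      unfold A2 at z2
      linear_combination z2
    have hu' : y 1 ∈ L := by
      refine mem_of_cubic hL (a := 0) (b := 3) (c := -algebraMap ℂ N (P.z 3))
        (d := -algebraMap ℂ N (P.z 1)) (zero_mem _) (three_mem L) (neg_mem (const_mem L _))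
        (neg_mem (const_mem L _)) ?_ (Or.inr (Or.inl three_ne_zero))
      unfold A0 at z0
      linear_combination z0
    refine ⟨?_, hu', hv'⟩
    refine mem_of_cubic hL (a := 0) (b := 1) (c := y 1 + y 2 + 3)
        (d := y 1 ^ 2 + y 2 ^ 2 - y 1 * y 2) (zero_mem _) (one_mem _)
        (add_mem (add_mem hu' hv') (three_mem L))
        (sub_mem (add_mem (pow_mem hu' 2) (pow_mem hv' 2)) (mul_mem hu' hv')) ?_
        (Or.inr (Or.inl one_ne_zero))
    unfold qQ at zQ
    linear_combination zQ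
  · left
    refine mem_of_cubic hM (a := 0) (b := A2 P (y 2))
      (c := A2 P (y 2) + A0 P (y 1) - 3 * qQ (y 0) (y 1) (y 2)) (d := A0 P (y 1)) (zero_mem _)
      (A2_mem M P hv)
      (sub_mem (add_mem (A2_mem M P hv) (A0_mem M P hu)) (mul_mem (three_mem M) (qQ_mem M hs hu hv)))
      (A0_mem M P hu) ?_ ?_
    · linear_combination hA
    · by_contra hcon
      push Not at hcon
      obtain ⟨-, e2, e1, e0⟩ := hcon
      apply hz
      refine ⟨e2, e0, ?_⟩
      rw [e2, e0] at e1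
      have h3 : (3 : N) * qQ (y 0) (y 1) (y 2) = 0 := by linear_combination -e1
      exact (mul_eq_zero.1 h3).resolve_left three_ne_zero

theorem notMem_empty_of_transcendental [IsAlgClosed N] {x : N} (h : Transcendental ℂ x) :
    x ∉ cl0 (∅ : Set N) := by
  intro hx
  rw [mem_cl0, IntermediateField.adjoin_empty] at hx
  apply h
  obtain ⟨p, hp0, hp⟩ := hx
  obtain ⟨q, hq⟩ : ∃ q : ℂ[X], q.map (algebraMap ℂ (⊥ : IntermediateField ℂ N)) = p := by
    refine (Polynomial.mem_lifts p).1 ((Polynomial.lifts_iff_coeff_lifts p).2 fun n => ?_)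
    obtain ⟨c, hc⟩ := IntermediateField.mem_bot.1 (p.coeff n).2
    exact ⟨c, Subtype.ext hc⟩
  refine ⟨q, ?_, ?_⟩
  · rintro rfl
    rw [Polynomial.map_zero] at hq
    exact hp0 hq.symm
  · rw [← hq, aeval_map_algebraMap] at hp
    exact hp

theorem transcendental_of_notMem [IsAlgClosed N] {x : N} {S : Set N} (h : x ∉ cl0 S) :
    Transcendental ℂ x := by
  intro hx
  apply h
  rw [mem_cl0]
  exact hx.extendScalars (algebraMap ℂ (IntermediateField.adjoin ℂ S)).injective

theorem indep_iff [IsAlgClosed N] {a b : N} : AlgebraicIndependent ℂ ![a, b] ↔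
    Transcendental ℂ a ∧ b ∉ cl0 ({a} : Set N) := by
  rw [H878.pair_iff, mem_cl0]
  rfl

theorem indep_swap {a b : N} (h : AlgebraicIndependent ℂ ![a, b]) :
    AlgebraicIndependent ℂ ![b, a] := by
  have h1 := h.comp ![1, 0] (by
    intro i j hij
    fin_cases i <;> fin_cases j <;> simp_all)
  convert h1 using 1
  funext k
  fin_cases k <;> rfl

/-- Two of the coordinates `s, u, v` are independent. -/
theorem ind3_aux [IsAlgClosed N] {P : Par} {y : Fin 4 → N}
    (hA : eA P (y 0) (y 1) (y 2) (y 3) = 0)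
    (hB : eB P (y 0) (y 1) (y 2) (y 3) = 0) (h1 : 1 + y 3 ≠ 0)
    (hind : ∃ i j, AlgebraicIndependent ℂ ![y i, y j]) :
    ∃ i j : Fin 3, AlgebraicIndependent ℂ ![y i.castSucc, y j.castSucc] := by
  -- the case of a pair that contains `τ`
  have key : ∀ i : Fin 3, AlgebraicIndependent ℂ ![y i.castSucc, y 3] →
      ∃ j : Fin 3, AlgebraicIndependent ℂ ![y i.castSucc, y j.castSucc] := by
    intro i hi
    obtain ⟨ha, hτ⟩ := indep_iff.1 hi
    by_contra hcon
    push Not at hcon
    have hmem : ∀ j : Fin 3, y j.castSucc ∈ cl0 ({y i.castSucc} : Set N) := by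
      intro j
      by_contra hj
      exact hcon j (indep_iff.2 ⟨ha, hj⟩)
    rcases tau_mem hA hB h1 (cl0_closed _) (hmem 0) (hmem 1) (hmem 2)
      (cl0_closed (∅ : Set N)) with h1 | ⟨h1, h2, h3⟩
    · exact hτ h1
    · apply notMem_empty_of_transcendental ha
      fin_cases i
      · exact h1
      · exact h2
      · exact h3
  obtain ⟨i, j, hij⟩ := hind
  have hne : i ≠ j := by
    rintro rfl
    have h1 : (0 : Fin 2) = 1 := hij.injective (by rfl)
    exact absurd h1 (by decide)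
  by_cases hi : i = 3
  · by_cases hj : j = 3
    · exact absurd (hi.trans hj.symm) hne
    · obtain ⟨j', rfl⟩ : ∃ j' : Fin 3, j = j'.castSucc := ⟨j.castLT (by omega), rfl⟩
      subst hi
      obtain ⟨k, hk⟩ := key j' (indep_swap hij)
      exact ⟨j', k, hk⟩
  · obtain ⟨i', rfl⟩ : ∃ i' : Fin 3, i = i'.castSucc := ⟨i.castLT (by omega), rfl⟩
    by_cases hj : j = 3
    · subst hj
      obtain ⟨k, hk⟩ := key i' hij
      exact ⟨i', k, hk⟩
    · obtain ⟨j', rfl⟩ : ∃ j' : Fin 3, j = j'.castSucc := ⟨j.castLT (by omega), rfl⟩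
      exact ⟨i', j', hij⟩

theorem exists_ind3 {P : Par} {y : Fin 4 → N}
    (hA : eA P (y 0) (y 1) (y 2) (y 3) = 0)
    (hB : eB P (y 0) (y 1) (y 2) (y 3) = 0) (h1 : 1 + y 3 ≠ 0)
    (hind : ∃ i j, AlgebraicIndependent ℂ ![y i, y j]) :
    ∃ i j : Fin 3, AlgebraicIndependent ℂ ![y i.castSucc, y j.castSucc] := by
  let σ : N →ₐ[ℂ] AlgebraicClosure N := IsScalarTower.toAlgHom ℂ N (AlgebraicClosure N)
  have hσ : Function.Injective σ := σ.toRingHom.injective
  obtain ⟨i, j, hij⟩ := ind3_aux (P := P) (y := fun j => σ (y j))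
    (by rw [← map_eA, hA, map_zero]) (by rw [← map_eB, hB, map_zero])
    (by
      intro h0
      apply h1
      apply hσ
      rw [map_zero, ← h0, map_add, map_one])
    (by
      obtain ⟨i, j, hij⟩ := hind
      refine ⟨i, j, ?_⟩
      have h1 := hij.map' (f := σ) hσ
      have h2 : (σ ∘ ![y i, y j]) = ![σ (y i), σ (y j)] := by
        funext k
        fin_cases k <;> rfl
      rwa [h2] at h1)
  refine ⟨i, j, AlgebraicIndependent.of_comp σ ?_⟩
  have h1 : (σ ∘ ![y i.castSucc, y j.castSucc]) = ![σ (y i.castSucc), σ (y j.castSucc)] := by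
    funext k
    fin_cases k <;> rfl
  rw [h1]
  exact hij

/-- **Generic points.** A point of the surface with two algebraically independent coordinates is
generic. -/
theorem GenS.of_ind {P : Par} (hirr : Irreducible (hP P)) {y : Fin 4 → N}
    (hA : eA P (y 0) (y 1) (y 2) (y 3) = 0)
    (hB : eB P (y 0) (y 1) (y 2) (y 3) = 0) (h1 : 1 + y 3 ≠ 0)
    (hind : ∃ i j, AlgebraicIndependent ℂ ![y i, y j]) : GenS P y := by
  haveI : CharZero N := charZero_of_injective_algebraMap (algebraMap ℂ N).injective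
  refine ⟨hA, hB, h1, ?_, hind⟩
  intro hV
  obtain ⟨i, j, hij⟩ := exists_ind3 hA hB h1 hind
  have hl : y 3 * fV P (y 0) (y 1) (y 2) + fU P (y 0) (y 1) (y 2) = 0 := by
    have h2 := three_eB P (y 0) (y 1) (y 2) (y 3)
    rw [hA, hB, mul_zero, mul_zero, add_zero] at h2
    exact (mul_eq_zero.1 h2.symm).resolve_left h1
  have hU : fU P (y 0) (y 1) (y 2) = 0 := by
    rw [hV, mul_zero, zero_add] at hl
    exact hl
  have hH : fH P (y 0) (y 1) (y 2) = 0 := by
    rw [fH, hU, hV]
    ring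
  have h3 := (dvd_of_generic (hP P) hirr (fun k : Fin 3 => y k.castSucc) (by
      rw [aeval_hP]
      exact hH) ![i, j] (by
      convert hij using 1
      funext k
      fin_cases k <;> rfl)
    (fV P (MvPolynomial.X 0) (MvPolynomial.X 1) (MvPolynomial.X 2))).1 (by
      rw [map_fV]
      simp only [MvPolynomial.aeval_X]
      exact hV)
  exact not_dvd_fV P h3

/-- At a generic point `τ ≠ 0`. -/
theorem GenS.tau_ne {P : Par} (hirr : Irreducible (hP P)) {y : Fin 4 → N} (h : GenS P y) :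
    y 3 ≠ 0 := by
  haveI : CharZero N := charZero_of_injective_algebraMap (algebraMap ℂ N).injective
  intro h0
  have hU : fU P (y 0) (y 1) (y 2) = 0 := by
    have h1 := h.tau
    rw [h0, zero_mul, zero_add] at h1
    exact h1
  apply not_dvd_fU P
  rw [← h.dvd hirr, map_fU]
  simp only [MvPolynomial.aeval_X]
  exact hU

end closed

section maps

variable {K N N' : Type} [Field K] [Algebra ℂ K] [Field N] [Algebra ℂ N] [Field N'] [Algebra ℂ N']
  {P : Par} {x : Fin 4 → K}

theorem charZeroC (N : Type) [Field N] [Algebra ℂ N] : CharZero N :=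
  charZero_of_injective_algebraMap (algebraMap ℂ N).injective

theorem GenS.of_phi (hx : IsFF P x) (φ : K →ₐ[ℂ] N) : GenS P (fun j => φ (x j)) :=
  hx.genS.map φ

/-- An extension of fields reflects generic points. -/
theorem GenS.of_map {y : Fin 4 → N} (σ : N →ₐ[ℂ] N') (h : GenS P (fun j => σ (y j))) :
    GenS P y where
  zA := by
    apply σ.toRingHom.injective
    rw [map_zero]
    exact (map_eA P σ _ _ _ _).trans h.zA
  zB := by
    apply σ.toRingHom.injective
    rw [map_zero]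
    exact (map_eB P σ _ _ _ _).trans h.zB
  ne := by
    intro h0
    apply h.ne
    have h1 : σ (1 + y 3) = 0 := by rw [h0, map_zero]
    rwa [map_add, map_one] at h1
  nV := by
    intro h0
    apply h.nV
    have h1 : σ (fV P (y 0) (y 1) (y 2)) = 0 := by rw [h0, map_zero]
    rwa [map_fV] at h1
  ind := by
    obtain ⟨i, j, hij⟩ := h.ind
    refine ⟨i, j, AlgebraicIndependent.of_comp σ ?_⟩
    have h1 : (σ ∘ ![y i, y j]) = ![σ (y i), σ (y j)] := by
      funext k
      fin_cases k <;> rfl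
    rw [h1]
    exact hij

/-- Points that are not generic give zero. -/
theorem pt_of_not (hx : IsFF P x) {y : Fin 4 → N} (h : ¬ GenS P y) : pt x y = 0 := by
  unfold pt
  rw [dif_neg]
  rintro ⟨φ, hφ⟩
  apply h
  have h1 : y = fun j => φ (x j) := funext fun j => (hφ j).symm
  rw [h1]
  exact GenS.of_phi hx φ

/-- The point in terms of `exists_phi`. -/
theorem GenS.exists_pt (hx : IsFF P x) {y : Fin 4 → N} (hy : GenS P y) :
    ∃ φ : K →ₐ[ℂ] N, (∀ j, φ (x j) = y j) ∧ pt x y = Finsupp.single φ 1 := by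
  haveI := charZeroC K
  haveI := charZeroC N
  obtain ⟨φ, hφ⟩ := hy.exists_phi hx
  exact ⟨φ, hφ, pt_eq hx hφ⟩

/-- Change of the field of values, for all points. -/
theorem map_pt_all (hx : IsFF P x) (y : Fin 4 → N) (σ : N →ₐ[ℂ] N') :
    Finsupp.mapDomain (fun φ : K →ₐ[ℂ] N => σ.comp φ) (pt x y) = pt x (fun j => σ (y j)) := by
  haveI := charZeroC K
  haveI := charZeroC N
  by_cases ho : GenS P y
  · exact map_pt hx ho σ
  · rw [pt_of_not hx ho, Finsupp.mapDomain_zero, pt_of_not hx fun h => ho (h.of_map σ)]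

/-- Four finite values along a place give the values of all elements. -/
theorem val_of_coord {N₁ : Type} [Field N₁] [Algebra ℂ N₁] [Algebra N N₁] [IsScalarTower ℂ N N₁]
    (V : H72.Plc N N₁) (hx : IsFF P x) {φ : K →ₐ[ℂ] N₁} {φ₀ : K →ₐ[ℂ] N}
    (h : ∀ j, V.Val (φ (x j)) (φ₀ (x j))) (z : K) : V.Val (φ z) (φ₀ z) :=
  V.val_of_gens hx.top (by
    rintro _ ⟨j, rfl⟩
    exact h j) z

end maps

section swap

/-- The parameters of the surface with `u` and `v` exchanged. -/
def Par.swap (P : Par) : Par := ⟨![P.z 1, P.z 0, P.z 3, P.z 2], ![P.t 1, P.t 0, P.t 3, P.t 2]⟩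

theorem Par.swap_swap (P : Par) : Par.swap (Par.swap P) = P := by
  obtain ⟨z, t⟩ := P
  simp only [Par.swap, Par.mk.injEq]
  constructor
  · funext i
    fin_cases i <;> rfl
  · funext i
    fin_cases i <;> rfl

/-- The point with `u` and `v` exchanged. -/
def sw {N : Type} [Field N] (y : Fin 4 → N) : Fin 4 → N := ![y 0, y 2, y 1, (y 3)⁻¹]

theorem sw_sw {N : Type} [Field N] (y : Fin 4 → N) : sw (sw y) = y := by
  funext i
  fin_cases i
  · rfl
  · rfl
  · rfl
  · exact inv_inv _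

section

variable {R : Type} [CommRing R] [Algebra ℂ R] (P : Par)

theorem A0_swap (u : R) : A0 (Par.swap P) u = A2 P u := rfl
theorem A2_swap (u : R) : A2 (Par.swap P) u = A0 P u := rfl
theorem B0_swap (u : R) : B0 (Par.swap P) u = B2 P u := rfl
theorem B2_swap (u : R) : B2 (Par.swap P) u = B0 P u := rfl

theorem qQ_swap (s u v : R) : qQ s v u = qQ s u v := by
  unfold qQ
  ring

theorem fU_swap (s u v : R) : fU (Par.swap P) s v u = fV P s u v := by
  unfold fU fV
  rw [A0_swap, B0_swap]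
  ring

theorem fV_swap (s u v : R) : fV (Par.swap P) s v u = fU P s u v := by
  unfold fU fV
  rw [A2_swap, B2_swap]
  ring

theorem fH_swap (s u v : R) : fH (Par.swap P) s v u = fH P s u v := by
  unfold fH
  rw [fU_swap, fV_swap, A0_swap, A2_swap, B0_swap, B2_swap, qQ_swap]
  ring

end

section

variable {N : Type} [Field N] [Algebra ℂ N] (P : Par)

theorem eA_swap {y : Fin 4 → N} (h : y 3 ≠ 0) :
    eA (Par.swap P) (sw y 0) (sw y 1) (sw y 2) (sw y 3) =
      eA P (y 0) (y 1) (y 2) (y 3) / y 3 ^ 2 := by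
  change eA (Par.swap P) (y 0) (y 2) (y 1) (y 3)⁻¹ = _
  unfold eA
  rw [A0_swap, A2_swap, qQ_swap]
  field_simp
  ring

theorem eB_swap {y : Fin 4 → N} (h : y 3 ≠ 0) :
    eB (Par.swap P) (sw y 0) (sw y 1) (sw y 2) (sw y 3) =
      eB P (y 0) (y 1) (y 2) (y 3) / y 3 ^ 2 := by
  change eB (Par.swap P) (y 0) (y 2) (y 1) (y 3)⁻¹ = _
  unfold eB
  rw [B0_swap, B2_swap, qQ_swap]
  field_simp
  ring

/-- The symmetry of the equation. -/
theorem hP_swap : MvPolynomial.rename (Equiv.swap (1 : Fin 3) 2) (hP (Par.swap P)) = hP P := by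
  unfold hP
  rw [← fH_swap P]
  have h := map_fH (Par.swap P)
    (MvPolynomial.rename (R := ℂ) (Equiv.swap (1 : Fin 3) 2))
    (MvPolynomial.X 0) (MvPolynomial.X 1) (MvPolynomial.X 2)
  rw [h, MvPolynomial.rename_X, MvPolynomial.rename_X, MvPolynomial.rename_X]
  rfl

theorem irr_swap (h : Irreducible (hP P)) : Irreducible (hP (Par.swap P)) := by
  rw [← hP_swap] at h
  let e := MvPolynomial.renameEquiv ℂ (Equiv.swap (1 : Fin 3) 2)
  have h1 : Irreducible (e (hP (Par.swap P))) := h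
  exact (MulEquiv.irreducible_iff e).1 h1

variable {P}

theorem GenS.swap (hirr : Irreducible (hP P)) {y : Fin 4 → N} (h : GenS P y) :
    GenS (Par.swap P) (sw y) := by
  have h0 := h.tau_ne hirr
  refine GenS.of_ind (irr_swap P hirr) ?_ ?_ ?_ ?_
  · rw [eA_swap P h0, h.zA, zero_div]
  · rw [eB_swap P h0, h.zB, zero_div]
  · change 1 + (y 3)⁻¹ ≠ 0
    intro h1
    apply h.ne
    field_simp at h1
    linear_combination h1
  · obtain ⟨i, j, hij⟩ := exists_ind3 h.zA h.zB h.ne h.ind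
    refine ⟨(Equiv.swap (1 : Fin 3) 2 i).castSucc, (Equiv.swap (1 : Fin 3) 2 j).castSucc, ?_⟩
    have key : ∀ i : Fin 3, sw y (Equiv.swap (1 : Fin 3) 2 i).castSucc = y i.castSucc := by
      intro i
      fin_cases i <;> rfl
    rw [key, key]
    exact hij

theorem IsFF.swap {K : Type} [Field K] [Algebra ℂ K] {x : Fin 4 → K} (hx : IsFF P x) :
    IsFF (Par.swap P) (sw x) := by
  have h0 := hx.genS.tau_ne hx.irr
  have h1 := hx.genS.swap hx.irr
  refine ⟨?_, h1.zA, h1.zB, h1.ne, h1.nV, hx.trdeg, irr_swap P hx.irr⟩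
  rw [eq_top_iff, ← hx.top, IntermediateField.adjoin_le_iff]
  rintro _ ⟨j, rfl⟩
  have h2 : ∀ j, sw x j ∈ IntermediateField.adjoin ℂ (Set.range (sw x)) := fun j =>
    IntermediateField.subset_adjoin _ _ ⟨j, rfl⟩
  fin_cases j
  · exact h2 0
  · exact h2 2
  · exact h2 1
  · have h3 := inv_mem (h2 3)
    change ((x 3)⁻¹)⁻¹ ∈ _ at h3
    rwa [inv_inv] at h3

open Classical in
/-- The cycle of a point does not change. -/
theorem pt_sw {K : Type} [Field K] [Algebra ℂ K] {x : Fin 4 → K} (y : Fin 4 → N) :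
    pt (sw x) (sw y) = pt x y := by
  have h : ∀ φ : K →ₐ[ℂ] N, (∀ j, φ (sw x j) = sw y j) ↔ ∀ j, φ (x j) = y j := by
    intro φ
    constructor
    · intro h j
      have h0 := h 0
      have h1 := h 1
      have h2 := h 2
      have h3 := h 3
      fin_cases j
      · exact h0
      · exact h2
      · exact h1
      · change φ (x 3)⁻¹ = (y 3)⁻¹ at h3
        rw [map_inv₀] at h3
        exact inv_injective h3
    · intro h j
      fin_cases j
      · exact h 0
      · exact h 2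
      · exact h 1
      · change φ (x 3)⁻¹ = (y 3)⁻¹
        rw [map_inv₀, h 3]
  have h' : (fun φ : K →ₐ[ℂ] N => ∀ j, φ (sw x j) = sw y j) = fun φ => ∀ j, φ (x j) = y j :=
    funext fun φ => propext (h φ)
  exact congrArg (fun p : (K →ₐ[ℂ] N) → Prop => if h : ∃ φ, p φ then
    Finsupp.single h.choose (1 : ℤ) else 0) h'

end

end swap

end Vale.Agent.P297.H288
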