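import Vale.Agent.P297.H721.PtMore
import Vale.Agent.P297.H637.BL

/-!
The rational curves `L(w, n)` over the points of the plane cubic, the polynomial of degree six of
their points on the surface, and the cycle of these points.
-/

set_option linter.unusedSectionVars false
set_option linter.style.haveILetI false
set_option linter.unusedSimpArgs false

open IntermediateField

namespace Vale.Agent.P297.H288

open Vale.Agent.P297 Vale.Agent.P297.H777 Vale.Agent.P297.Gen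

section defs

variable {R : Type} [CommRing R] [Algebra ℂ R] (P : Par)

/-- `B₀ + δ A₀` -/
def ff0 (δ D : R) : R := B0 P D + δ * A0 P D

/-- `B₂ + δ A₂` -/
def ff2 (δ B : R) : R := B2 P B + δ * A2 P B

/-- `9 δ² + 9 δ + ρ₃ + ρ₄` -/
def mu (δ : R) : R := 9 * δ ^ 2 + 9 * δ + (algebraMap ℂ R (P.t 2) + algebraMap ℂ R (P.z 2) * δ) +
  (algebraMap ℂ R (P.t 3) + algebraMap ℂ R (P.z 3) * δ)

/-- `h = 3 B D + 3 (δ + 1) (B + D) + 9 δ² + 9 δ + ρ₃ + ρ₄` -/
def hh (δ B D : R) : R := 3 * B * D + 3 * (δ + 1) * (B + D) + mu P δ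

/-- `ζ₃ + ζ₄` -/
def zz : R := algebraMap ℂ R (P.z 2) + algebraMap ℂ R (P.z 3)

def kk2 (δ B D : R) : R := 6 * B - 3 * D - zz P - 9 * δ

def kk0 (δ B D : R) : R := 6 * D - 3 * B - zz P - 9 * δ

def kk1 (δ B D : R) : R := -(algebraMap ℂ R (P.z 2) * B) - algebraMap ℂ R (P.z 3) * D -
  algebraMap ℂ R (P.z 0) - algebraMap ℂ R (P.z 1) + 3 * B * D - 3 * (B + D + 3 * δ) * (B + D) -
  3 * (B + D + 3 * δ) ^ 2 - 9 * (B + D + 3 * δ)

/-- The equation `eA` in the chart. -/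
def eS (δ B D a τ : R) : R := 9 * a ^ 2 + a * (τ * kk2 P δ B D + kk0 P δ B D) + τ ^ 2 * A2 P B +
  τ * kk1 P δ B D + A0 P D

/-- The values of the polynomial of degree six. -/
def p6 (δ B : R) (w n : Fin 3 → R) (D : R) : R :=
  9 * n 0 ^ 2 * n 2 ^ 2 * (D - w 1) ^ 2 * (D - w 2) ^ 2 +
  n 0 * n 2 * (D - w 1) ^ 3 * (D - w 2) ^ 2 * kk2 P δ B D +
  n 0 ^ 3 * n 2 ^ 2 * (D - w 1) * (D - w 2) * kk0 P δ B D +
  (D - w 1) ^ 4 * (D - w 2) ^ 2 * A2 P B +
  n 0 ^ 2 * n 2 * (D - w 1) ^ 2 * (D - w 2) * kk1 P δ B D +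
  n 0 ^ 4 * n 2 ^ 2 * A0 P D

/-- `w` are the roots of `B₀ + δ A₀`, and `n` is a point over `B` of the plane cubic. -/
structure Lab (δ B : R) (w n : Fin 3 → R) : Prop where
  w1 : w 0 + w 1 + w 2 = -(3 * δ)
  w2 : w 0 * w 1 + w 1 * w 2 + w 2 * w 0 =
    -(algebraMap ℂ R (P.t 3) + algebraMap ℂ R (P.z 3) * δ)
  w3 : w 0 * w 1 * w 2 = algebraMap ℂ R (P.t 1) + algebraMap ℂ R (P.z 1) * δ
  n1 : n 0 + n 1 + n 2 = 3 * (B + δ + 1)
  n2 : w 0 * n 0 + w 1 * n 1 + w 2 * n 2 = -(3 * (δ + 1) * B + mu P δ)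
  n3 : n 0 * n 1 * n 2 = ff2 P δ B

variable {P}

/-- The factorisation of `B₀ + δ A₀`. -/
theorem Lab.ff0_eq {δ B : R} {w n : Fin 3 → R} (h : Lab P δ B w n) (D : R) :
    ff0 P δ D = (D - w 0) * (D - w 1) * (D - w 2) := by
  unfold ff0 B0 A0
  linear_combination D ^ 2 * h.w1 - D * h.w2 + h.w3

theorem Lab.hh_eq {δ B : R} {w n : Fin 3 → R} (h : Lab P δ B w n) (D : R) :
    hh P δ B D = n 0 * (D - w 0) + n 1 * (D - w 1) + n 2 * (D - w 2) := by
  unfold hh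
  linear_combination h.n2 - D * h.n1

section map

variable {R' : Type} [CommRing R'] [Algebra ℂ R'] (f : R →ₐ[ℂ] R')

theorem map_mu (δ : R) : f (mu P δ) = mu P (f δ) := by
  simp only [mu, map_add, map_mul, map_pow, map_ofNat, AlgHom.commutes]

theorem map_zz : f (zz P : R) = zz P := by
  simp only [zz, map_add, AlgHom.commutes]

theorem map_kk2 (δ B D : R) : f (kk2 P δ B D) = kk2 P (f δ) (f B) (f D) := by
  simp only [kk2, map_add, map_sub, map_mul, map_ofNat, map_zz]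

theorem map_kk0 (δ B D : R) : f (kk0 P δ B D) = kk0 P (f δ) (f B) (f D) := by
  simp only [kk0, map_add, map_sub, map_mul, map_ofNat, map_zz]

theorem map_kk1 (δ B D : R) : f (kk1 P δ B D) = kk1 P (f δ) (f B) (f D) := by
  simp only [kk1, map_add, map_sub, map_mul, map_pow, map_neg, map_ofNat, AlgHom.commutes]

theorem map_ff2 (δ B : R) : f (ff2 P δ B) = ff2 P (f δ) (f B) := by
  simp only [ff2, map_add, map_mul, map_B2, map_A2]

theorem map_ff0 (δ B : R) : f (ff0 P δ B) = ff0 P (f δ) (f B) := by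
  simp only [ff0, map_add, map_mul, map_B0, map_A0]

theorem map_p6 (δ B : R) (w n : Fin 3 → R) (D : R) :
    f (p6 P δ B w n D) = p6 P (f δ) (f B) (fun i => f (w i)) (fun i => f (n i)) (f D) := by
  simp only [p6, map_add, map_sub, map_mul, map_pow, map_ofNat, map_kk0, map_kk1, map_kk2, map_A2,
    map_A0]

theorem Lab.map {δ B : R} {w n : Fin 3 → R} (h : Lab P δ B w n) :
    Lab P (f δ) (f B) (fun i => f (w i)) (fun i => f (n i)) where
  w1 := by
    rw [← map_add, ← map_add, h.w1]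
    simp only [map_neg, map_mul, map_ofNat]
  w2 := by
    rw [← map_mul, ← map_mul, ← map_mul, ← map_add, ← map_add, h.w2]
    simp only [map_neg, map_mul, map_add, map_ofNat, AlgHom.commutes]
  w3 := by
    rw [← map_mul, ← map_mul, h.w3]
    simp only [map_neg, map_mul, map_add, map_ofNat, AlgHom.commutes]
  n1 := by
    rw [← map_add, ← map_add, h.n1]
    simp only [map_neg, map_mul, map_add, map_one, map_ofNat]
  n2 := by
    rw [← map_mul, ← map_mul, ← map_mul, ← map_add, ← map_add, h.n2]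
    simp only [map_neg, map_mul, map_add, map_one, map_ofNat, map_mu]
  n3 := by
    rw [← map_mul, ← map_mul, h.n3, map_ff2]

end map

end defs

section chart

variable {N : Type} [Field N] [Algebra ℂ N] {P : Par}

/-- The chart of the threefold. -/
def crd (δ B D a τ : N) : Fin 4 → N := ![B + D + 3 * δ, a + D, B + a / τ, τ]

theorem eA_crd {δ B D a τ : N} (hτ : τ ≠ 0) :
    eA P (crd δ B D a τ 0) (crd δ B D a τ 1) (crd δ B D a τ 2) (crd δ B D a τ 3) =
      eS P δ B D a τ := by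
  change eA P (B + D + 3 * δ) (a + D) (B + a / τ) τ = _
  unfold eA eS kk2 kk0 kk1 A2 A0 qQ zz
  field_simp
  ring

theorem eB_crd {δ B D a τ : N} (hτ : τ ≠ 0) (ha : a ≠ 0)
    (hT : ff0 P δ D / a + τ * ff2 P δ B / a + a ^ 2 / τ = hh P δ B D) :
    eB P (crd δ B D a τ 0) (crd δ B D a τ 1) (crd δ B D a τ 2) (crd δ B D a τ 3) =
      -(δ * eS P δ B D a τ) := by
  have h1 : a ^ 3 + τ ^ 2 * ff2 P δ B + τ * ff0 P δ D - a * τ * hh P δ B D = 0 := by
    rw [← hT]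
    field_simp
    ring
  have h2 : τ * (eB P (B + D + 3 * δ) (a + D) (B + a / τ) τ + δ * eA P (B + D + 3 * δ) (a + D)
      (B + a / τ) τ) = (1 + τ) * (a ^ 3 + τ ^ 2 * ff2 P δ B + τ * ff0 P δ D -
        a * τ * hh P δ B D) := by
    unfold eB eA ff0 ff2 hh mu A2 A0 B0 B2 qQ
    field_simp
    ring
  rw [h1, mul_zero] at h2
  have h3 := (mul_eq_zero.1 h2).resolve_left hτ
  have h4 := eA_crd (P := P) (δ := δ) (B := B) (D := D) (a := a) hτ
  change eA P (B + D + 3 * δ) (a + D) (B + a / τ) τ = _ at h4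
  change eB P (B + D + 3 * δ) (a + D) (B + a / τ) τ = _
  rw [← h4]
  linear_combination h3

/-- The coordinate `a` on `L(w, n)`. -/
def la (w n : Fin 3 → N) (D : N) : N := (D - w 1) * (D - w 2) / n 0

/-- The coordinate `τ` on `L(w, n)`. -/
def lt (w n : Fin 3 → N) (D : N) : N := (D - w 1) ^ 2 * (D - w 2) / (n 0 ^ 2 * n 2)

/-- The point with parameter `D` on the curve `L(w, n)` over `B`. -/
def Lpt (δ B : N) (w n : Fin 3 → N) (D : N) : Fin 4 → N := crd δ B D (la w n D) (lt w n D)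

theorem Lpt_zero (δ B : N) (w n : Fin 3 → N) (D : N) : Lpt δ B w n D 0 = B + D + 3 * δ := rfl

theorem Lpt_one (δ B : N) (w n : Fin 3 → N) (D : N) : Lpt δ B w n D 1 = la w n D + D := rfl

theorem Lpt_two (δ B : N) (w n : Fin 3 → N) (D : N) :
    Lpt δ B w n D 2 = B + la w n D / lt w n D := rfl

theorem Lpt_three (δ B : N) (w n : Fin 3 → N) (D : N) : Lpt δ B w n D 3 = lt w n D := rfl

theorem map_la {N' : Type} [Field N'] [Algebra ℂ N'] (f : N →ₐ[ℂ] N') (w n : Fin 3 → N) (D : N) :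
    f (la w n D) = la (fun i => f (w i)) (fun i => f (n i)) (f D) := by
  simp only [la, map_div₀, map_mul, map_sub]

theorem map_lt {N' : Type} [Field N'] [Algebra ℂ N'] (f : N →ₐ[ℂ] N') (w n : Fin 3 → N) (D : N) :
    f (lt w n D) = lt (fun i => f (w i)) (fun i => f (n i)) (f D) := by
  simp only [lt, map_div₀, map_mul, map_sub, map_pow]

theorem map_Lpt {N' : Type} [Field N'] [Algebra ℂ N'] (f : N →ₐ[ℂ] N') (δ B : N)
    (w n : Fin 3 → N) (D : N) (j : Fin 4) :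
    f (Lpt δ B w n D j) = Lpt (f δ) (f B) (fun i => f (w i)) (fun i => f (n i)) (f D) j := by
  fin_cases j
  · change f (B + D + 3 * δ) = f B + f D + 3 * f δ
    simp only [map_add, map_mul, map_ofNat]
  · change f (la w n D + D) = _ + f D
    rw [map_add, map_la]
  · change f (B + la w n D / lt w n D) = f B + _ / _
    rw [map_add, map_div₀, map_la, map_lt]
  · exact map_lt f w n D

section line

variable {δ B : N} {w n : Fin 3 → N} {D : N}

theorem lt_ne (h0 : n 0 ≠ 0) (h2 : n 2 ≠ 0) (d1 : D ≠ w 1) (d2 : D ≠ w 2) : lt w n D ≠ 0 :=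
  div_ne_zero (mul_ne_zero (pow_ne_zero 2 (sub_ne_zero.2 d1)) (sub_ne_zero.2 d2))
    (mul_ne_zero (pow_ne_zero 2 h0) h2)

theorem la_ne (h0 : n 0 ≠ 0) (d1 : D ≠ w 1) (d2 : D ≠ w 2) : la w n D ≠ 0 :=
  div_ne_zero (mul_ne_zero (sub_ne_zero.2 d1) (sub_ne_zero.2 d2)) h0

theorem la_div_lt (h0 : n 0 ≠ 0) (h2 : n 2 ≠ 0) (d1 : D ≠ w 1) (d2 : D ≠ w 2) :
    la w n D / lt w n D = n 0 * n 2 / (D - w 1) := by
  have e1 := sub_ne_zero.2 d1
  have e2 := sub_ne_zero.2 d2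
  unfold la lt
  field_simp

/-- The three products. -/
theorem Lab.q0 (h : Lab P δ B w n) (h0 : n 0 ≠ 0) (d1 : D ≠ w 1) (d2 : D ≠ w 2) :
    ff0 P δ D / la w n D = n 0 * (D - w 0) := by
  have e1 := sub_ne_zero.2 d1
  have e2 := sub_ne_zero.2 d2
  rw [h.ff0_eq D]
  unfold la
  field_simp

theorem Lab.q1 (h : Lab P δ B w n) (h0 : n 0 ≠ 0) (h2 : n 2 ≠ 0) (d1 : D ≠ w 1) (d2 : D ≠ w 2) :
    lt w n D * ff2 P δ B / la w n D = n 1 * (D - w 1) := by
  have e1 := sub_ne_zero.2 d1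
  have e2 := sub_ne_zero.2 d2
  rw [← h.n3]
  unfold la lt
  field_simp

theorem Lab.q2 (h0 : n 0 ≠ 0) (h2 : n 2 ≠ 0) (d1 : D ≠ w 1) (d2 : D ≠ w 2) :
    la w n D ^ 2 / lt w n D = n 2 * (D - w 2) := by
  have e1 := sub_ne_zero.2 d1
  have e2 := sub_ne_zero.2 d2
  unfold la lt
  field_simp

theorem Lab.hT (h : Lab P δ B w n) (h0 : n 0 ≠ 0) (h2 : n 2 ≠ 0) (d1 : D ≠ w 1) (d2 : D ≠ w 2) :
    ff0 P δ D / la w n D + lt w n D * ff2 P δ B / la w n D + la w n D ^ 2 / lt w n D =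
      hh P δ B D := by
  rw [h.q0 h0 d1 d2, h.q1 h0 h2 d1 d2, Lab.q2 h0 h2 d1 d2, h.hh_eq]

theorem p6_eq (h0 : n 0 ≠ 0) (h2 : n 2 ≠ 0) :
    p6 P δ B w n D = n 0 ^ 4 * n 2 ^ 2 * eS P δ B D (la w n D) (lt w n D) := by
  unfold p6 eS la lt
  field_simp
  ring

/-- The equation `eA` on the curve. -/
theorem eA_Lpt (h0 : n 0 ≠ 0) (h2 : n 2 ≠ 0) (d1 : D ≠ w 1) (d2 : D ≠ w 2) :
    eA P (Lpt δ B w n D 0) (Lpt δ B w n D 1) (Lpt δ B w n D 2) (Lpt δ B w n D 3) =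
      p6 P δ B w n D / (n 0 ^ 4 * n 2 ^ 2) := by
  rw [Lpt, eA_crd (lt_ne h0 h2 d1 d2), p6_eq h0 h2]
  field_simp

/-- The equation `eB` on the curve. -/
theorem Lab.eB_Lpt (h : Lab P δ B w n) (h0 : n 0 ≠ 0) (h2 : n 2 ≠ 0) (d1 : D ≠ w 1)
    (d2 : D ≠ w 2) :
    eB P (Lpt δ B w n D 0) (Lpt δ B w n D 1) (Lpt δ B w n D 2) (Lpt δ B w n D 3) =
      -(δ * (p6 P δ B w n D / (n 0 ^ 4 * n 2 ^ 2))) := by
  rw [Lpt, eB_crd (lt_ne h0 h2 d1 d2) (la_ne h0 d1 d2) (h.hT h0 h2 d1 d2), p6_eq h0 h2]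
  field_simp

theorem p6_w1 : p6 P δ B w n (w 1) = n 0 ^ 4 * n 2 ^ 2 * A0 P (w 1) := by
  unfold p6
  ring

theorem p6_w2 : p6 P δ B w n (w 2) = n 0 ^ 4 * n 2 ^ 2 * A0 P (w 2) := by
  unfold p6
  ring

end line

end chart

section poly

open Polynomial

variable {N : Type} [Field N] [Algebra ℂ N] (P : Par)

/-- The polynomial of degree six. -/
noncomputable def P6 (δ B : N) (w n : Fin 3 → N) : N[X] :=
  p6 P (C δ) (C B) (fun i => C (w i)) (fun i => C (n i)) X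

variable {P}

theorem P6_eval (δ B : N) (w n : Fin 3 → N) (D : N) :
    (P6 P δ B w n).eval D = p6 P δ B w n D := by
  have h := map_p6 (P := P) ((aeval D).restrictScalars ℂ : N[X] →ₐ[ℂ] N) (C δ) (C B)
    (fun i => C (w i)) (fun i => C (n i)) X
  have h2 : (aeval D (P6 P δ B w n) : N) = p6 P δ B w n D := by
    refine h.trans ?_
    simp [aeval_C]
  rw [← h2, coe_aeval_eq_eval]

theorem P6_map {N' : Type} [Field N'] [Algebra ℂ N'] (f : N →ₐ[ℂ] N') (δ B : N)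
    (w n : Fin 3 → N) : (P6 P δ B w n).map (f : N →+* N') =
      P6 P (f δ) (f B) (fun i => f (w i)) (fun i => f (n i)) := by
  have h := map_p6 (P := P) (Polynomial.mapAlgHom f : N[X] →ₐ[ℂ] N'[X]) (C δ) (C B)
    (fun i => C (w i)) (fun i => C (n i)) X
  have h1 : (Polynomial.mapAlgHom f) (P6 P δ B w n) = (P6 P δ B w n).map (f : N →+* N') := rfl
  rw [← h1]
  refine h.trans ?_
  simp only [Polynomial.coe_mapAlgHom, map_C, map_X]
  rfl

theorem A2_CC (B : N) : A2 P (C B : N[X]) = C (A2 P B) :=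
  (map_A2 P (Algebra.ofId N N[X] |>.restrictScalars ℂ) B).symm

/-- The polynomial has degree at most six. -/
theorem P6_coeff (δ B : N) (w n : Fin 3 → N) :
    (P6 P δ B w n).coeff 6 = A2 P B - 3 * n 0 * n 2 ∧ (P6 P δ B w n).natDegree ≤ 6 := by
  have hz : (zz P : N[X]) = C (zz P) := by
    unfold zz
    rw [C_add]
    rfl
  have hc : ∀ c : ℂ, algebraMap ℂ N[X] c = C (algebraMap ℂ N c) := fun _ => rfl
  unfold P6 p6 kk2 kk0 kk1 A0
  rw [A2_CC, hz]
  simp only [hc]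
  constructor
  · compute_degree
    all_goals first | omega | ring
  · compute_degree

theorem P6_natDegree {δ B : N} {w n : Fin 3 → N} (h : A2 P B - 3 * n 0 * n 2 ≠ 0) :
    (P6 P δ B w n).natDegree = 6 := by
  obtain ⟨h1, h2⟩ := P6_coeff (P := P) δ B w n
  refine le_antisymm h2 ?_
  refine le_natDegree_of_ne_zero ?_
  rwa [h1]

end poly

section lead

variable {R : Type} [CommRing R] [Algebra ℂ R] (P : Par)

def lU (δ w1 w2 B : R) : R :=
  (3 * (δ + 1) * B + mu P δ) * A2 P B + 3 * w1 * ff2 P δ B +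
    w2 * (3 * (B + δ + 1) * A2 P B - 3 * ff2 P δ B)

def lG (δ w0 w1 w2 B : R) : R :=
  3 * lU P δ w1 w2 B * lU P δ w1 w0 B + A2 P B ^ 3 * (w2 - w0) ^ 2

variable {P}

theorem map_lG {R' : Type} [CommRing R'] [Algebra ℂ R'] (f : R →ₐ[ℂ] R') (δ w0 w1 w2 B : R) :
    f (lG P δ w0 w1 w2 B) = lG P (f δ) (f w0) (f w1) (f w2) (f B) := by
  simp only [lG, lU, map_add, map_sub, map_mul, map_pow, map_neg, map_one, map_ofNat, map_A2,
    map_ff2, map_mu]

open Polynomial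

/-- The leading coefficient. -/
theorem lG_coeff {F : Type} [Field F] [Algebra ℂ F] (δ w0 w1 w2 : F)
    (h : w0 + w1 + w2 = -(3 * δ)) : (lG P (C δ) (C w0) (C w1) (C w2) X : F[X]).coeff 6 = 243 := by
  have hc : ∀ c : ℂ, algebraMap ℂ F[X] c = C (algebraMap ℂ F c) := fun _ => rfl
  have hm : (mu P (C δ) : F[X]) = C (mu P δ) :=
    (map_mu (Algebra.ofId F F[X] |>.restrictScalars ℂ) δ).symm
  unfold lG lU
  rw [hm]
  unfold ff2 A2 B2
  simp only [hc]
  compute_degree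
  all_goals first
    | omega
    | linear_combination (27 * (2 * w0 + w1 + 3 * δ + 3) + 27 * (w2 - w0 + 3)) * h

end lead

section facts

open Polynomial

variable {N : Type} [Field N] [Algebra ℂ N] {P : Par} {F : IntermediateField ℂ N}
  {δ B : N} {w n : Fin 3 → N}

/-- **The degree.** -/
theorem Lab.lead_ne (h : Lab P δ B w n) (hF : ∀ u : N, IsAlgebraic F u → u ∈ F) (hδ : δ ∈ F)
    (hw : ∀ i, w i ∈ F) (hB : B ∉ F) : A2 P B - 3 * n 0 * n 2 ≠ 0 := by
  haveI := charZeroC N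
  intro h0
  have h1 : A2 P B * n 1 = 3 * ff2 P δ B := by
    rw [← h.n3]
    linear_combination n 1 * h0
  have hU : lU P δ (w 1) (w 2) B = A2 P B * ((w 2 - w 0) * n 0) := by
    unfold lU
    linear_combination (A2 P B * w 2) * h.n1 * (-1) + A2 P B * h.n2 + (w 2 - w 1) * h1
  have hV : lU P δ (w 1) (w 0) B = -(A2 P B * ((w 2 - w 0) * n 2)) := by
    unfold lU
    linear_combination (A2 P B * w 0) * h.n1 * (-1) + A2 P B * h.n2 + (w 0 - w 1) * h1
  have hG : lG P δ (w 0) (w 1) (w 2) B = 0 := by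
    unfold lG
    rw [hU, hV]
    linear_combination A2 P B ^ 2 * (w 2 - w 0) ^ 2 * h0
  let δ' : F := ⟨δ, hδ⟩
  let w' : Fin 3 → F := fun i => ⟨w i, hw i⟩
  let G : F[X] := lG P (C δ') (C (w' 0)) (C (w' 1)) (C (w' 2)) X
  have hc : G.coeff 6 = 243 := lG_coeff δ' (w' 0) (w' 1) (w' 2) (by
    apply Subtype.ext
    change w 0 + w 1 + w 2 = -(((3 : F) : N) * δ)
    rw [h.w1]
    rfl)
  have hG0 : G ≠ 0 := by
    intro h2
    rw [h2, coeff_zero] at hc
    have h3 : (243 : F) ≠ 0 := by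
      have h4 : ((243 : ℕ) : N) ≠ 0 := Nat.cast_ne_zero.2 (by norm_num)
      intro h5
      apply h4
      have h6 := congrArg (algebraMap F N) h5
      rw [map_zero] at h6
      rw [← h6]
      rfl
    exact h3 hc.symm
  apply hB
  apply hF
  refine ⟨G, hG0, ?_⟩
  have h2 := map_lG (P := P) ((aeval B : F[X] →ₐ[F] N).restrictScalars ℂ) (C δ') (C (w' 0))
    (C (w' 1)) (C (w' 2)) X
  have h3 : (aeval B G : N) = lG P δ (w 0) (w 1) (w 2) B := by
    refine h2.trans ?_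
    simp only [AlgHom.restrictScalars_apply, aeval_X, aeval_C]
    rfl
  rw [h3, hG]

theorem Lab.P6_natDegree (h : Lab P δ B w n) (hF : ∀ u : N, IsAlgebraic F u → u ∈ F)
    (hδ : δ ∈ F) (hw : ∀ i, w i ∈ F) (hB : B ∉ F) : (P6 P δ B w n).natDegree = 6 :=
  H288.P6_natDegree (h.lead_ne hF hδ hw hB)

/-- A common root of `A₀` and `B₀` is a constant. -/
theorem A0_ne (hco : ∀ c : ℂ, A0 P c = 0 → B0 P c ≠ 0) {v : N} (h : ff0 P δ v = 0) :
    A0 P v ≠ 0 := by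
  haveI := charZeroC N
  intro h0
  have hb : B0 P v = 0 := by
    rw [ff0, h0, mul_zero, add_zero] at h
    exact h
  obtain ⟨t, ht⟩ := IsAlgClosed.exists_pow_nat_eq (P.z 3 ^ 2 + 12 * P.z 1) (n := 2) (by norm_num)
  have key : ∀ r : ℂ, A0 P r = 0 → v ≠ algebraMap ℂ N r := by
    rintro r hr rfl
    apply hco r hr
    have h1 := map_B0 P (Algebra.ofId ℂ N) r
    have h2 : algebraMap ℂ N (B0 P r) = B0 P (algebraMap ℂ N r) := h1
    rw [hb] at h2
    exact (map_eq_zero _).1 h2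
  have e1 : A0 P ((P.z 3 + t) / 6) = 0 := by
    change 3 * ((P.z 3 + t) / 6) ^ 2 - P.z 3 * ((P.z 3 + t) / 6) - P.z 1 = 0
    field_simp
    linear_combination 3 * ht
  have e2 : A0 P ((P.z 3 - t) / 6) = 0 := by
    change 3 * ((P.z 3 - t) / 6) ^ 2 - P.z 3 * ((P.z 3 - t) / 6) - P.z 1 = 0
    field_simp
    linear_combination 3 * ht
  have h3 : (v - algebraMap ℂ N ((P.z 3 + t) / 6)) * (v - algebraMap ℂ N ((P.z 3 - t) / 6)) = 0 := by
    have ht' : algebraMap ℂ N t ^ 2 =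
        algebraMap ℂ N (P.z 3) ^ 2 + 12 * algebraMap ℂ N (P.z 1) := by
      rw [← map_pow, ht, map_add, map_mul, map_pow, map_ofNat]
    have h4 : 3 * v ^ 2 - algebraMap ℂ N (P.z 3) * v - algebraMap ℂ N (P.z 1) = 0 := h0
    rw [map_div₀, map_div₀, map_add, map_sub, map_ofNat]
    have h6 : (6 : N) ≠ 0 := by
      have h7 : ((6 : ℕ) : N) ≠ 0 := Nat.cast_ne_zero.2 (by norm_num)
      exact_mod_cast h7
    field_simp
    linear_combination 12 * h4 - ht'
  rcases mul_eq_zero.1 h3 with h4 | h4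
  · exact key _ e1 (sub_eq_zero.1 h4)
  · exact key _ e2 (sub_eq_zero.1 h4)

/-- The numbers `n` do not vanish. -/
theorem Lab.n_ne (h : Lab P δ B w n) (hF : ∀ u : N, IsAlgebraic F u → u ∈ F) (hδ : δ ∈ F)
    (hB : B ∉ F) (i : Fin 3) : n i ≠ 0 := by
  intro h0
  have h1 : ff2 P δ B = 0 := by
    rw [← h.n3]
    fin_cases i
    · have h0' : n 0 = 0 := h0
      rw [h0']
      ring
    · have h0' : n 1 = 0 := h0
      rw [h0']
      ring
    · have h0' : n 2 = 0 := h0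
      rw [h0']
      ring
  apply hB
  refine mem_of_cubic hF (a := 1) (b := 3 * δ)
    (c := -(algebraMap ℂ N (P.t 2) + algebraMap ℂ N (P.z 2) * δ))
    (d := -(algebraMap ℂ N (P.t 0) + algebraMap ℂ N (P.z 0) * δ)) (one_mem _)
    (mul_mem (three_mem F) hδ) (neg_mem (add_mem (const_mem F _) (mul_mem (const_mem F _) hδ)))
    (neg_mem (add_mem (const_mem F _) (mul_mem (const_mem F _) hδ))) ?_ (Or.inl one_ne_zero)
  unfold ff2 B2 A2 at h1
  linear_combination h1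

theorem Lab.ff0_w (h : Lab P δ B w n) (i : Fin 3) : ff0 P δ (w i) = 0 := by
  rw [h.ff0_eq]
  fin_cases i
  · change (w 0 - w 0) * (w 0 - w 1) * (w 0 - w 2) = 0
    ring
  · change (w 1 - w 0) * (w 1 - w 1) * (w 1 - w 2) = 0
    ring
  · change (w 2 - w 0) * (w 2 - w 1) * (w 2 - w 2) = 0
    ring

/-- The roots of `B₀ + δ A₀` are algebraic over `δ`. -/
theorem Lab.w_mem (h : Lab P δ B w n) (hF : ∀ u : N, IsAlgebraic F u → u ∈ F) (hδ : δ ∈ F)
    (i : Fin 3) : w i ∈ F := by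
  refine mem_of_cubic hF (a := 1) (b := 3 * δ)
    (c := -(algebraMap ℂ N (P.t 3) + algebraMap ℂ N (P.z 3) * δ))
    (d := -(algebraMap ℂ N (P.t 1) + algebraMap ℂ N (P.z 1) * δ)) (one_mem _)
    (mul_mem (three_mem F) hδ) (neg_mem (add_mem (const_mem F _) (mul_mem (const_mem F _) hδ)))
    (neg_mem (add_mem (const_mem F _) (mul_mem (const_mem F _) hδ))) ?_ (Or.inl one_ne_zero)
  have h1 := h.ff0_w i
  unfold ff0 B0 A0 at h1
  linear_combination h1

/-- **The roots of the polynomial of degree six are the points of the surface on the curve.** -/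
theorem Lab.root (h : Lab P δ B w n) (hF : ∀ u : N, IsAlgebraic F u → u ∈ F) (hδ : δ ∈ F)
    (hB : B ∉ F) (hco : ∀ c : ℂ, A0 P c = 0 → B0 P c ≠ 0) {D : N}
    (hD : (P6 P δ B w n).eval D = 0) :
    D ≠ w 1 ∧ D ≠ w 2 ∧ la w n D ≠ 0 ∧ lt w n D ≠ 0 ∧
      eA P (Lpt δ B w n D 0) (Lpt δ B w n D 1) (Lpt δ B w n D 2) (Lpt δ B w n D 3) = 0 ∧
      eB P (Lpt δ B w n D 0) (Lpt δ B w n D 1) (Lpt δ B w n D 2) (Lpt δ B w n D 3) = 0 := by
  rw [P6_eval] at hD
  have hn := h.n_ne hF hδ hB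
  have h02 : n 0 ^ 4 * n 2 ^ 2 ≠ 0 := mul_ne_zero (pow_ne_zero 4 (hn 0)) (pow_ne_zero 2 (hn 2))
  have d1 : D ≠ w 1 := by
    rintro rfl
    rw [p6_w1] at hD
    exact (mul_ne_zero h02 (A0_ne hco (h.ff0_w 1))) hD
  have d2 : D ≠ w 2 := by
    rintro rfl
    rw [p6_w2] at hD
    exact (mul_ne_zero h02 (A0_ne hco (h.ff0_w 2))) hD
  refine ⟨d1, d2, la_ne (hn 0) d1 d2, lt_ne (hn 0) (hn 2) d1 d2, ?_, ?_⟩
  · rw [eA_Lpt (hn 0) (hn 2) d1 d2, hD, zero_div]
  · rw [h.eB_Lpt (hn 0) (hn 2) d1 d2, hD, zero_div, mul_zero, neg_zero]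

end facts

section cycle

open Polynomial

variable {K N N' : Type} [Field K] [Algebra ℂ K] [Field N] [Algebra ℂ N] [Field N'] [Algebra ℂ N']
  {P : Par} {x : Fin 4 → K}

/-- **The cycle of the six points of the surface on the curve `L(w, n)` over `B`.** -/
noncomputable def Bsig (P : Par) (x : Fin 4 → K) (δ B : N) (w n : Fin 3 → N) :
    (K →ₐ[ℂ] N) →₀ ℤ :=
  ((P6 P δ B w n).roots.map fun D => pt x (Lpt δ B w n D)).sum

/-- Equivariance. -/
theorem map_Bsig [IsAlgClosed N] (hx : IsFF P x) (f : N →ₐ[ℂ] N') (δ B : N) (w n : Fin 3 → N) :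
    Finsupp.mapDomain (fun φ : K →ₐ[ℂ] N => f.comp φ) (Bsig P x δ B w n) =
      Bsig P x (f δ) (f B) (fun i => f (w i)) (fun i => f (n i)) := by
  unfold Bsig
  rw [H637.sum_roots_map f (P6 P δ B w n) _ (fun D => pt x (Lpt (f δ) (f B) (fun i => f (w i))
    (fun i => f (n i)) D)) (fun r _ => by
      rw [map_pt_all hx]
      congr 1
      funext j
      exact map_Lpt f δ B w n r j), P6_map]

end cycle

end Vale.Agent.P297.H288
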