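import Vale.Agent.P297.H721.SR
import Vale.Agent.P297.H80.Z3.Node

/-!
The relation of the second pencil of conics: the sum of the cycles of the two lines does not depend
on the point.
-/

set_option linter.unusedSectionVars false
set_option linter.style.haveILetI false
set_option linter.unusedSimpArgs false

open Polynomial IntermediateField

namespace Vale.Agent.P297.H721

open Vale.Agent.P297 Vale.Agent.P297.H288 Vale.Agent.P297.H72 Vale.Agent.P297.H637
open Vale.Agent.P297.H80 Vale.Agent.P297.Gen Vale.Agent.P297.H54 Vale.Agent.P297.H424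
open Vale.Agent.P297.H839 Vale.Agent.P297.H777

section cyc

variable {K : Type} [Field K] [Algebra ℂ K]

/-- the parameters of the form -/
def uu {L : Type} (c : Fin 4 → L) (v : Fin 2 → L) : Fin 5 → L := ![c 0, v 0, v 1, c 2, c 3]

/-- the roots `w` -/
def ww {L : Type} (c : Fin 4 → L) : Fin 3 → L := ![c 1, c 2, c 3]

/-- the polynomial of the points of the surface on the conic -/
noncomputable def Fo (P : Par) {L : Type} [Field L] [Algebra ℂ L] (c : Fin 4 → L) (v : Fin 2 → L) :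
    L[X] := Fx (ee (oN P) (uu c v)) (ff2 P (c 0) (v 0)) (v 1) (c 1) (c 3) (c 2)
      (3 * (v 0 + c 0 + 1)) (h0 P (c 0) (v 0))

/-- the coordinate `D` on the conic -/
noncomputable def Do (P : Par) {L : Type} [Field L] [Algebra ℂ L] (c : Fin 4 → L) (v : Fin 2 → L)
    (r : L) : L := (Nx (ff2 P (c 0) (v 0)) (v 1) (c 1) (c 3) (c 2) (3 * (v 0 + c 0 + 1))
      (h0 P (c 0) (v 0))).eval r / (Mx (ff2 P (c 0) (v 0)) (v 1) (3 * (v 0 + c 0 + 1))).eval r

/-- the coordinate `α` on the conic -/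
noncomputable def Ao (P : Par) {L : Type} [Field L] [Algebra ℂ L] (c : Fin 4 → L) (v : Fin 2 → L)
    (r : L) : L := v 1 * (Kx (v 1) (c 1) (c 3) (c 2) (3 * (v 0 + c 0 + 1))
      (h0 P (c 0) (v 0))).eval r / (Mx (ff2 P (c 0) (v 0)) (v 1) (3 * (v 0 + c 0 + 1))).eval r

/-- the point with the coordinates `D`, `α` -/
noncomputable def po (P : Par) (x : Fin 4 → K) {L : Type} [Field L] [Algebra ℂ L] (δ B ν : L)
    (w : Fin 3 → L) (D α : L) : (K →ₐ[ℂ] L) →₀ ℤ :=
  H288.pt x (crd δ B D (ao w D α) (ot (ff2 P δ B) ν w D α))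

/-- **The cycle of the points of the surface on the conic.** -/
noncomputable def Vo (P : Par) (x : Fin 4 → K) (L : Type) [Field L] [Algebra ℂ L]
    (c : Fin 4 → L) (v : Fin 2 → L) : (K →ₐ[ℂ] L) →₀ ℤ :=
  ((Fo P c v).roots.map fun r => po P x (c 0) (v 0) (v 1) (ww c) (Do P c v r) (Ao P c v r)).sum

section map

variable {L L' : Type} [Field L] [Algebra ℂ L] [Field L'] [Algebra ℂ L'] {P : Par} (g : L →ₐ[ℂ] L')

theorem map_uu (c : Fin 4 → L) (v : Fin 2 → L) :
    (fun i => g (uu c v i)) = uu (fun i => g (c i)) (fun i => g (v i)) := by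
  funext i
  fin_cases i <;> rfl

theorem map_h0 (δ B : L) : g (h0 P δ B) = h0 P (g δ) (g B) := by
  simp only [h0, map_add, map_mul, map_ofNat, map_one, map_mu]

theorem map_H1 (δ B : L) : g (3 * (B + δ + 1)) = 3 * (g B + g δ + 1) := by
  simp only [map_mul, map_add, map_one, map_ofNat]

theorem map_Fo (c : Fin 4 → L) (v : Fin 2 → L) : (Fo P c v).map (g : L →+* L') =
    Fo P (fun i => g (c i)) (fun i => g (v i)) := by
  unfold Fo
  rw [Fx_map]
  have h1 : (fun a b => (g : L →+* L') (ee (oN P) (uu c v) a b)) =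
      ee (oN P) (uu (fun i => g (c i)) (fun i => g (v i))) := by
    funext a b
    rw [← map_uu]
    exact map_ee _ g _ a b
  rw [h1]
  have h2 : (g : L →+* L') (ff2 P (c 0) (v 0)) = ff2 P (g (c 0)) (g (v 0)) := map_ff2 g _ _
  have h3 : (g : L →+* L') (h0 P (c 0) (v 0)) = h0 P (g (c 0)) (g (v 0)) := map_h0 g _ _
  have h4 : (g : L →+* L') (3 * (v 0 + c 0 + 1)) = 3 * (g (v 0) + g (c 0) + 1) := map_H1 g _ _
  rw [h2, h3, h4]
  rfl

theorem map_Mo (c : Fin 4 → L) (v : Fin 2 → L) (r : L) :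
    g ((Mx (ff2 P (c 0) (v 0)) (v 1) (3 * (v 0 + c 0 + 1))).eval r) =
      (Mx (ff2 P (g (c 0)) (g (v 0))) (g (v 1)) (3 * (g (v 0) + g (c 0) + 1))).eval (g r) := by
  rw [Mx_eval, Mx_eval, ← map_ff2, ← map_H1]
  simp only [map_add, map_sub, map_mul, map_pow]

theorem map_Ko (c : Fin 4 → L) (v : Fin 2 → L) (r : L) :
    g ((Kx (v 1) (c 1) (c 3) (c 2) (3 * (v 0 + c 0 + 1)) (h0 P (c 0) (v 0))).eval r) =
      (Kx (g (v 1)) (g (c 1)) (g (c 3)) (g (c 2)) (3 * (g (v 0) + g (c 0) + 1))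
        (h0 P (g (c 0)) (g (v 0)))).eval (g r) := by
  rw [Kx_eval, Kx_eval, ← map_h0, ← map_H1]
  simp only [map_add, map_sub, map_mul, map_pow]

theorem map_Do (c : Fin 4 → L) (v : Fin 2 → L) (r : L) :
    g (Do P c v r) = Do P (fun i => g (c i)) (fun i => g (v i)) (g r) := by
  unfold Do
  rw [Nx_eval, Nx_eval, map_div₀, map_add, map_mul, map_mul, map_mul, map_Mo, map_Ko]

theorem map_Ao (c : Fin 4 → L) (v : Fin 2 → L) (r : L) :
    g (Ao P c v r) = Ao P (fun i => g (c i)) (fun i => g (v i)) (g r) := by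
  unfold Ao
  rw [map_div₀, map_mul, map_Mo, map_Ko]

theorem map_crd (δ B D a τ : L) (j : Fin 4) :
    g (crd δ B D a τ j) = crd (g δ) (g B) (g D) (g a) (g τ) j := by
  fin_cases j
  · change g (B + D + 3 * δ) = g B + g D + 3 * g δ
    simp only [map_add, map_mul, map_ofNat]
  · change g (a + D) = g a + g D
    rw [map_add]
  · change g (B + a / τ) = g B + g a / g τ
    rw [map_add, map_div₀]
  · rfl

theorem map_po {x : Fin 4 → K} (hx : H288.IsFF P x) (δ B ν : L) (w : Fin 3 → L) (D α : L) :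
    Finsupp.mapDomain (fun φ : K →ₐ[ℂ] L => g.comp φ) (po P x δ B ν w D α) =
      po P x (g δ) (g B) (g ν) (fun i => g (w i)) (g D) (g α) := by
  unfold po
  rw [map_pt_all hx]
  congr 1
  funext j
  rw [map_crd]
  congr 1
  · simp only [ao, map_mul, map_sub]
  · simp only [ot, map_mul, map_sub, map_pow, map_div₀, map_ff2]

theorem map_Vo [IsAlgClosed L] {x : Fin 4 → K} (hx : H288.IsFF P x) (c : Fin 4 → L) (v : Fin 2 → L) :
    Finsupp.mapDomain (fun φ : K →ₐ[ℂ] L => g.comp φ) (Vo P x L c v) =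
      Vo P x L' (fun i => g (c i)) (fun i => g (v i)) := by
  unfold Vo
  rw [sum_roots_map g (Fo P c v) _ (fun r => po P x (g (c 0)) (g (v 0)) (g (v 1))
    (ww (fun i => g (c i))) (Do P (fun i => g (c i)) (fun i => g (v i)) r)
    (Ao P (fun i => g (c i)) (fun i => g (v i)) r)) (fun r _ => by
      rw [map_po g hx, map_Do, map_Ao]
      congr 1
      funext i
      fin_cases i <;> rfl), map_Fo]

end map

end cyc

section line

variable {N : Type} [Field N] [Algebra ℂ N] {P : Par} {δ B : N} {w n : Fin 3 → N}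

theorem lab_swq (h : Lab P δ B w n) : Lab P δ B (swq w) (swq n) where
  w1 := by
    rw [swq_zero, swq_one, swq_two, ← h.w1]
    ring
  w2 := by
    rw [swq_zero, swq_one, swq_two, ← h.w2]
    ring
  w3 := by
    rw [swq_zero, swq_one, swq_two, ← h.w3]
    ring
  n1 := by
    rw [swq_zero, swq_one, swq_two, ← h.n1]
    ring
  n2 := by
    rw [swq_zero, swq_one, swq_two, swq_zero, swq_one, swq_two, ← h.n2]
    ring
  n3 := by
    rw [swq_zero, swq_one, swq_two, ← h.n3]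
    ring

theorem ao_line (w n : Fin 3 → N) (D : N) : ao w D ((D - w 2) / n 0) = la w n D := by
  unfold ao la
  ring

theorem ot_line (h0 : n 0 ≠ 0) (h1 : n 1 ≠ 0) (h2 : n 2 ≠ 0) (w : Fin 3 → N) (D : N) :
    ot (n 0 * n 1 * n 2) (n 1) w D ((D - w 2) / n 0) = lt w n D := by
  unfold ot lt
  field_simp

theorem o_line (h0 : n 0 ≠ 0) (h1 : n 1 ≠ 0) (h2 : n 2 ≠ 0) (D : N) :
    o0 P (n 0 * n 1 * n 2) D + o1 P δ B (n 1) (n 0 * n 1 * n 2) (w 1) D * ((D - w 2) / n 0) +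
      o2 P δ B (n 1) (n 0 * n 1 * n 2) (w 1) D * ((D - w 2) / n 0) ^ 2 =
      (n 1 / n 0) ^ 2 * p6 P δ B w n D := by
  rw [o_eS w (mul_ne_zero (mul_ne_zero h0 h1) h2), ao_line, ot_line h0 h1 h2, p6_eq h0 h2]
  field_simp

/-- the parameters of the degenerate member -/
def cD (δ : N) (w : Fin 3 → N) : Fin 4 → N := ![δ, w 0, w 1, w 2]

theorem ww_cD (δ : N) (w : Fin 3 → N) : ww (cD δ w) = w := by
  funext i
  fin_cases i <;> rfl

/-- the form of the degenerate member -/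
theorem ee_o (δ B ν : N) (w : Fin 3 → N) (D α : N) :
    Ef (ee (oN P) (uu (cD δ w) ![B, ν])) D α 1 = o0 P (ff2 P δ B) D +
      o1 P δ B ν (ff2 P δ B) (w 1) D * α + o2 P δ B ν (ff2 P δ B) (w 1) D * α ^ 2 :=
  ee_one (oN P) (dgs_oN P) _ D α

theorem Qx_line1 [Infinite N] (h : Lab P δ B w n) (h0 : n 0 ≠ 0) (h1 : n 1 ≠ 0) (h2 : n 2 ≠ 0) :
    Qx (ee (oN P) (uu (cD δ w) ![B, n 1])) (n 0) (w 2) =
      C ((n 1 / n 0) ^ 2) * P6 P δ B w n := by
  refine Polynomial.funext fun D => ?_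
  rw [Qx_eval, ee_o, eval_mul, eval_C, P6_eval, ← h.n3, o_line h0 h1 h2]

theorem Qx_line2 [Infinite N] (h : Lab P δ B w n) (h0 : n 0 ≠ 0) (h1 : n 1 ≠ 0) (h2 : n 2 ≠ 0) :
    Qx (ee (oN P) (uu (cD δ w) ![B, n 1])) (n 2) (w 0) =
      C ((n 1 / n 2) ^ 2) * P6 P δ B (swq w) (swq n) := by
  refine Polynomial.funext fun D => ?_
  have h3 := o_line (P := P) (δ := δ) (B := B) (w := swq w) (n := swq n) h2 h1 h0 D
  rw [swq_zero, swq_one, swq_two, swq_one, swq_two] at h3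
  have h4 : n 2 * n 1 * n 0 = ff2 P δ B := by
    rw [← h.n3]
    ring
  rw [h4] at h3
  rw [Qx_eval, ee_o, eval_mul, eval_C, P6_eval, h3]

end line

section spec

variable {K N N₁ : Type} [Field K] [Algebra ℂ K] [Field N] [Algebra ℂ N] [Field N₁] [Algebra ℂ N₁]
  [Algebra N N₁] [IsScalarTower ℂ N N₁] {V : Plc N N₁} {P : Par} {x : Fin 4 → K}

theorem val_ff2 {δ₁ B₁ : N₁} {δ B : N} (hδ : V.Val δ₁ δ) (hB : V.Val B₁ B) :
    V.Val (ff2 P δ₁ B₁) (ff2 P δ B) :=
  (H521.val_B2 hB).add (hδ.mul (H521.val_A2 hB))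

/-- **The moving points of the conics specialise to the points of the degenerate member.** -/
theorem spec_o (hx : H288.IsFF P x) {δ₁ B₁ ν₁ D₁ α₁ : N₁} {w₁ : Fin 3 → N₁} {δ B ν D α : N}
    {w : Fin 3 → N} (hδ : V.Val δ₁ δ) (hB : V.Val B₁ B) (hν : V.Val ν₁ ν)
    (hw : ∀ i, V.Val (w₁ i) (w i)) (hD : V.Val D₁ D) (hα : V.Val α₁ α)
    (hfac : ff0 P δ₁ D₁ = (D₁ - w₁ 0) * (D₁ - w₁ 1) * (D₁ - w₁ 2))
    (hf : ff2 P δ B ≠ 0) (ha : ao w D α ≠ 0) (ht : ot (ff2 P δ B) ν w D α ≠ 0)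
    (hc : Cn (3 * (B₁ + δ₁ + 1)) (h0 P δ₁ B₁) (ff2 P δ₁ B₁) ν₁ (w₁ 0) (w₁ 2) (w₁ 1) D₁ α₁ = 0)
    (he : o0 P (ff2 P δ₁ B₁) D₁ + o1 P δ₁ B₁ ν₁ (ff2 P δ₁ B₁) (w₁ 1) D₁ * α₁ +
      o2 P δ₁ B₁ ν₁ (ff2 P δ₁ B₁) (w₁ 1) D₁ * α₁ ^ 2 = 0)
    (hg : GenS P (crd δ B D (ao w D α) (ot (ff2 P δ B) ν w D α))) :
    (po P x δ₁ B₁ ν₁ w₁ D₁ α₁, po P x δ B ν w D α) ∈ SpecC K V := by
  have vf : V.Val (ff2 P δ₁ B₁) (ff2 P δ B) := val_ff2 hδ hB
  have va : V.Val (ao w₁ D₁ α₁) (ao w D α) := (hD.sub (hw 1)).mul hα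
  have vt : V.Val (ot (ff2 P δ₁ B₁) ν₁ w₁ D₁ α₁) (ot (ff2 P δ B) ν w D α) :=
    ((((hD.sub (hw 1)).pow 2).mul hα).mul hν).div vf hf
  obtain ⟨h1, h2⟩ := on_o (P := P) hfac (vf.ne_zero hf) (va.ne_zero ha) (vt.ne_zero ht) hc he
  refine H521.specC_pt hx h1 h2 (fun j => ?_) hg
  fin_cases j
  · exact (hB.add hD).add (H521.val_three'.mul hδ)
  · exact va.add hD
  · exact hB.add (va.div vt ht)
  · exact vt

end spec

section near

variable {N N₁ : Type} [Field N] [Algebra ℂ N] [Field N₁] [Algebra ℂ N₁]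
  [Algebra N N₁] [IsScalarTower ℂ N N₁] {V : Plc N N₁} {P : Par} {δ B : N} {w n : Fin 3 → N}

theorem algMap_ff2 (δ B : N) : algebraMap N N₁ (ff2 P δ B) =
    ff2 P (algebraMap N N₁ δ) (algebraMap N N₁ B) :=
  map_ff2 (IsScalarTower.toAlgHom ℂ N N₁) δ B

theorem algMap_h0 (δ B : N) : algebraMap N N₁ (h0 P δ B) =
    h0 P (algebraMap N N₁ δ) (algebraMap N N₁ B) :=
  map_h0 (IsScalarTower.toAlgHom ℂ N N₁) δ B

/-- The nearby member of the second pencil. -/
theorem mv_o (h : Lab P δ B w n) {l : N₁} (hl0 : l ≠ 0) (hl : V.Val l 0) {y : Fin 2 → N₁}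
    (hy0 : V.Val (y 0) 0) (hy1 : V.Val (y 1) 1) :
    Mv V (n 0) (n 2) (n 1) (w 0) (w 2) (w 1) l (y 1)
      (3 * (algebraMap N N₁ δ + 1) * y 0) (3 * y 0)
      (y 0 * (3 * algebraMap N N₁ B ^ 2 + 3 * algebraMap N N₁ B * (l * y 0) + (l * y 0) ^ 2 -
        algebraMap ℂ N₁ (P.t 2) + algebraMap N N₁ δ * (6 * algebraMap N N₁ B + 3 * (l * y 0) -
          algebraMap ℂ N₁ (P.z 2))))
      (algebraMap N N₁ (n 1) + l * y 1)
      (3 * (algebraMap N N₁ B + l * y 0 + algebraMap N N₁ δ + 1))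
      (h0 P (algebraMap N N₁ δ) (algebraMap N N₁ B + l * y 0))
      (ff2 P (algebraMap N N₁ δ) (algebraMap N N₁ B + l * y 0)) where
  hl0 := hl0
  hl := hl
  hy := hy1
  hz0 := by
    have h1 := ((H521.val_three' (V := V)).mul ((V.val_const δ).add V.val_one)).mul hy0
    rwa [mul_zero] at h1
  hz1 := by
    have h1 := (H521.val_three' (V := V)).mul hy0
    rwa [mul_zero] at h1
  hz2 := by
    have v6 : V.Val (6 : N₁) (6 : N) := by
      have h := H521.val_ofNat (V := V) 6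
      exact_mod_cast h
    have h1 := hy0.mul ((((((H521.val_three' (V := V)).mul ((V.val_const B).pow 2)).add
      (((H521.val_three' (V := V)).mul (V.val_const B)).mul (hl.mul hy0))).add
      ((hl.mul hy0).pow 2)).sub (H521.val_alg (P.t 2))).add ((V.val_const δ).mul
      (((v6.mul (V.val_const B)).add ((H521.val_three' (V := V)).mul (hl.mul hy0))).sub
        (H521.val_alg (P.z 2)))))
    rwa [zero_mul] at h1
  hν := rfl
  hH1 := by
    have h1 : n 0 + n 2 + n 1 = 3 * (B + δ + 1) := by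
      rw [← h.n1]
      ring
    rw [h1]
    simp only [map_mul, map_add, map_one, map_ofNat]
    ring
  hH0 := by
    have h1 : -(w 0 * n 0 + w 2 * n 2 + w 1 * n 1) = h0 P δ B := by
      unfold h0
      linear_combination -h.n2
    rw [h1, algMap_h0]
    unfold h0
    ring
  hf2 := by
    have h1 : n 0 * n 2 * n 1 = ff2 P δ B := by
      rw [← h.n3]
      ring
    rw [h1, algMap_ff2]
    unfold ff2 B2 A2
    ring

end near

section main

variable {K N N₁ : Type} [Field K] [Algebra ℂ K] [Field N] [Algebra ℂ N] [IsAlgClosed N] [Field N₁]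
  [Algebra ℂ N₁] [IsAlgClosed N₁] [Algebra N N₁] [IsScalarTower ℂ N N₁] {V : Plc N N₁} {P : Par}
  {x : Fin 4 → K} {δ B : N} {w n : Fin 3 → N}

/-- the sum over the first line -/
theorem sum_line1 (h : Lab P δ B w n) (h0 : n 0 ≠ 0) (h1 : n 1 ≠ 0) (h2 : n 2 ≠ 0) :
    ((Qx (ee (oN P) (uu (cD δ w) ![B, n 1])) (n 0) (w 2)).roots.map fun D =>
      po P x δ B (n 1) w D ((D - w 2) / n 0)).sum = Bsig P x δ B w n := by
  rw [Qx_line1 h h0 h1 h2, roots_C_mul _ (pow_ne_zero 2 (div_ne_zero h1 h0))]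
  unfold Bsig
  congr 1
  refine Multiset.map_congr rfl fun D _ => ?_
  unfold po
  rw [ao_line, ← h.n3, ot_line h0 h1 h2]
  rfl

/-- the sum over the second line -/
theorem sum_line2 (h : Lab P δ B w n) (h0 : n 0 ≠ 0) (h1 : n 1 ≠ 0) (h2 : n 2 ≠ 0) :
    ((Qx (ee (oN P) (uu (cD δ w) ![B, n 1])) (n 2) (w 0)).roots.map fun D =>
      po P x δ B (n 1) w D ((D - w 0) / n 2)).sum = Bsig P x δ B (swq w) (swq n) := by
  rw [Qx_line2 h h0 h1 h2, roots_C_mul _ (pow_ne_zero 2 (div_ne_zero h1 h2))]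
  unfold Bsig
  congr 1
  refine Multiset.map_congr rfl fun D _ => ?_
  have h4 : n 2 * n 1 * n 0 = ff2 P δ B := by
    rw [← h.n3]
    ring
  have e1 := ao_line (swq w) (swq n) D
  have e2 := ot_line (n := swq n) h2 h1 h0 (swq w) D
  rw [swq_zero, swq_one, swq_two, swq_two, h4] at e2
  rw [swq_two, swq_zero] at e1
  unfold po Lpt
  rw [← e1, ← e2]
  rfl

/-- **The specialisation of the second pencil.** -/
theorem spec_Vo (hx : H288.IsFF P x) (hδ : Transcendental ℂ δ) (h : Lab P δ B w n)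
    (hB : B ∉ cl0 ({δ} : Set N)) (hw : w 0 ≠ w 2)
    (hΘ : n 0 * n 1 * (w 0 - w 1) + n 2 * n 1 * (w 1 - w 2) + n 0 * n 2 * (w 2 - w 0) ≠ 0)
    {l : N₁} (hl0 : l ≠ 0) (hl : V.Val l 0) {y : Fin 2 → N₁} (hy : ∀ i, V.Val (y i) ((![0, 1] : Fin 2 → N) i)) :
    (Vo P x N₁ (fun i => algebraMap N N₁ (cD δ w i))
      (fun i => algebraMap N N₁ ((![B, n 1] : Fin 2 → N) i) + l * y i),
      Bsig P x δ B w n + Bsig P x δ B (swq w) (swq n)) ∈ SpecC K V := by
  have hirr := hx.irr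
  have hco := H278.coprime_of_irr hirr
  have hF := cl0_closed ({δ} : Set N)
  have hδF : δ ∈ cl0 ({δ} : Set N) := subset_cl0 _ (Set.mem_singleton δ)
  have hn := h.n_ne hF hδF hB
  have h0 := hn 0
  have h1 := hn 1
  have h2 := hn 2
  have h' := lab_swq h
  have hy0 : V.Val (y 0) 0 := hy 0
  have hy1 : V.Val (y 1) 1 := hy 1
  have hff : ff2 P δ B ≠ 0 := by
    rw [← h.n3]
    exact mul_ne_zero (mul_ne_zero h0 h1) h2
  have hd : (P6 P δ B w n).natDegree = 6 := h.P6_natDegree hF hδF (h.w_mem hF hδF) hB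
  have hd' : (P6 P δ B (swq w) (swq n)).natDegree = 6 :=
    h'.P6_natDegree hF hδF (h'.w_mem hF hδF) hB
  have vB : V.Val (algebraMap N N₁ B + l * y 0) B := by
    have h3 := (V.val_const B).add (hl.mul hy0)
    rwa [zero_mul, add_zero] at h3
  have vn : V.Val (algebraMap N N₁ (n 1) + l * y 1) (n 1) := by
    have h3 := (V.val_const (n 1)).add (hl.mul hy1)
    rwa [zero_mul, add_zero] at h3
  have vu : ∀ i, V.Val (uu (fun i => algebraMap N N₁ (cD δ w i))
      (fun i => algebraMap N N₁ ((![B, n 1] : Fin 2 → N) i) + l * y i) i)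
      (uu (cD δ w) ![B, n 1] i) := by
    intro i
    fin_cases i
    · exact V.val_const δ
    · exact vB
    · exact vn
    · exact V.val_const (w 1)
    · exact V.val_const (w 2)
  have key := pencil_spec (K := K) (P := V) h0 h2 h1 hw (by
      intro h3
      apply hΘ
      linear_combination h3) (mv_o h hl0 hl hy0 hy1)
    (fun a b => val_ee (oN P) vu a b)
    (by
      have h3 := ee_o (P := P) δ B (n 1) w (w 2) 0
      rw [h3, mul_zero, zero_pow (by norm_num), mul_zero, add_zero, add_zero]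
      exact mul_ne_zero (pow_ne_zero 2 hff) (A0_ne hco (h.ff0_w 2)))
    (by rw [Qx_line1 h h0 h1 h2, natDegree_C_mul (pow_ne_zero 2 (div_ne_zero h1 h0)), hd])
    (by rw [Qx_line2 h h0 h1 h2, natDegree_C_mul (pow_ne_zero 2 (div_ne_zero h1 h2)), hd'])
    (fun D α => po P x (algebraMap N N₁ δ) (algebraMap N N₁ B + l * y 0)
      (algebraMap N N₁ (n 1) + l * y 1) (fun i => algebraMap N N₁ (w i)) D α)
    (fun D α => po P x δ B (n 1) w D α) ?_
  · rw [sum_line1 h h0 h1 h2, sum_line2 h h0 h1 h2] at key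
    exact key
  · intro D₁ α₁ D α hD hα hc he hlim
    have hg : GenS P (crd δ B D (ao w D α) (ot (ff2 P δ B) (n 1) w D α)) ∧ ao w D α ≠ 0 ∧
        ot (ff2 P δ B) (n 1) w D α ≠ 0 := by
      rcases hlim with ⟨hQ, rfl⟩ | ⟨hQ, rfl⟩
      · rw [Qx_line1 h h0 h1 h2, eval_mul, eval_C] at hQ
        have hQ' := (mul_eq_zero.1 hQ).resolve_left (pow_ne_zero 2 (div_ne_zero h1 h0))
        obtain ⟨-, -, k1, k2, -, -⟩ := h.root hF hδF hB hco hQ'
        rw [ao_line, ← h.n3, ot_line h0 h1 h2]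
        exact ⟨h.genS_root hirr hδ hB hQ', k1, k2⟩
      · rw [Qx_line2 h h0 h1 h2, eval_mul, eval_C] at hQ
        have hQ' := (mul_eq_zero.1 hQ).resolve_left (pow_ne_zero 2 (div_ne_zero h1 h2))
        obtain ⟨-, -, k1, k2, -, -⟩ := h'.root hF hδF hB hco hQ'
        have h4 : n 2 * n 1 * n 0 = ff2 P δ B := by
          rw [← h.n3]
          ring
        have e1 := ao_line (swq w) (swq n) D
        have e2 := ot_line (n := swq n) h2 h1 h0 (swq w) D
        rw [swq_zero, swq_one, swq_two, swq_two, h4] at e2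
        rw [swq_two, swq_zero] at e1
        have e3 : ao w D ((D - w 0) / n 2) = la (swq w) (swq n) D := e1
        have e4 : ot (ff2 P δ B) (n 1) w D ((D - w 0) / n 2) = lt (swq w) (swq n) D := e2
        rw [e3, e4]
        exact ⟨h'.genS_root hirr hδ hB hQ', k1, k2⟩
    obtain ⟨hg1, hg2, hg3⟩ := hg
    refine spec_o hx (V.val_const δ) vB vn (fun i => V.val_const (w i)) hD hα ?_ hff hg2 hg3 hc ?_ hg1
    · exact (h.map (IsScalarTower.toAlgHom ℂ N N₁)).ff0_eq D₁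
    · have h3 : Ef (ee (oN P) (uu (cD (algebraMap N N₁ δ) (fun i => algebraMap N N₁ (w i)))
          ![algebraMap N N₁ B + l * y 0, algebraMap N N₁ (n 1) + l * y 1])) D₁ α₁ 1 = 0 := by
        have h4 : uu (cD (algebraMap N N₁ δ) (fun i => algebraMap N N₁ (w i)))
            ![algebraMap N N₁ B + l * y 0, algebraMap N N₁ (n 1) + l * y 1] =
            uu (fun i => algebraMap N N₁ (cD δ w i))
              (fun i => algebraMap N N₁ ((![B, n 1] : Fin 2 → N) i) + l * y i) := by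
          funext i
          fin_cases i <;> rfl
        rw [h4]
        exact he
      rw [ee_o] at h3
      exact h3

/-- **The relation of the second pencil**: the sum of the cycles of the two lines through the
second root does not depend on the point of the plane cubic. -/
theorem rel1 [CharZero N] {m : ℤ} (hx : H288.IsFF P x) (hδ : Transcendental ℂ δ)
    (hΘ : ∀ (e : N) (w : Fin 3 → N) (B : N) (n : Fin 3 → N), GD P δ e w B n →
      n 0 * n 1 * (w 0 - w 1) + n 2 * n 1 * (w 1 - w 2) + n 0 * n 2 * (w 2 - w 0) ≠ 0) :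
    R1 m P x δ := by
  intro e v β n β' n' h h'
  have hirr := hx.irr
  have hco := H278.coprime_of_irr hirr
  have hF := cl0_closed ({δ} : Set N)
  have hδF : δ ∈ cl0 ({δ} : Set N) := subset_cl0 _ (Set.mem_singleton δ)
  have hw : v 0 ≠ v 2 := by
    have h1 := (GD.lab h).rt.rot.rot.ne (F := cl0 (∅ : Set N)) (cl0_closed _) hco
      (notMem_empty_of_transcendental hδ)
    exact fun h2 => h1 h2.symm
  exact multi_specC2 (K := K) (m := m) (fun L _ _ _ c v => Vo P x L c v)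
    (fun L L' _ _ _ _ _ _ g c v => map_Vo g hx c v) (cD δ v) ![β, n 1] ![0, 1] ![β', n' 1] ![0, 1]
    _ _
    (fun N₁ _ _ _ _ _ V l y hl0 hl hy _ => spec_Vo hx hδ (GD.lab h) h.gen hw (hΘ _ _ _ _ h) hl0 hl hy)
    (fun N₁ _ _ _ _ _ V l y hl0 hl hy _ => spec_Vo hx hδ (GD.lab h') h'.gen hw (hΘ _ _ _ _ h') hl0 hl hy)

theorem disc_cf2_tr (hfree : FreeS P) (hδ : Transcendental ℂ δ) : disc3 (cf2 P δ) ≠ 0 := by
  have h1 := map_disc_cf2 (aeval δ : ℂ[X] →ₐ[ℂ] N) P X
  rw [aeval_X] at h1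
  rw [← h1]
  intro h2
  exact discX_cf2_ne hfree ((transcendental_iff.1 hδ) _ h2)

/-- **The relation of the second pencil.** -/
theorem R1_of [CharZero N] {m : ℤ} (hx : H288.IsFF P x) (hfree : FreeS P)
    (hδ : Transcendental ℂ δ) : R1 m P x δ := by
  refine rel1 hx hδ fun e w B n h => ?_
  have hco := H278.coprime_of_irr hx.irr
  have hF := cl0_closed ({δ} : Set N)
  have hδF : δ ∈ cl0 ({δ} : Set N) := subset_cl0 _ (Set.mem_singleton δ)
  have hF0 := cl0_closed (∅ : Set N)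
  have hδ0 := notMem_empty_of_transcendental hδ
  have hr := (GD.lab h).rt
  have h1 := hr.ne (F := cl0 (∅ : Set N)) hF0 hco hδ0
  have h2 := hr.rot.ne (F := cl0 (∅ : Set N)) hF0 hco hδ0
  have h3 := hr.rot.rot.ne (F := cl0 (∅ : Set N)) hF0 hco hδ0
  have key := thet_ne (GD.lab h) hF hδF h.gen
    (mul_ne_zero (mul_ne_zero (sub_ne_zero.2 h1) (sub_ne_zero.2 h2)) (sub_ne_zero.2 h3))
    (disc_cf2_tr hfree hδ)
  intro h4
  apply key
  unfold thet
  linear_combination h4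

end main

end Vale.Agent.P297.H721
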