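import Vale.Agent.P297.H721.ROne

/-!
The relation of the first pencil of conics: the sum of the cycles of the two lines does not depend
on the point.
-/

set_option linter.unusedSectionVars false
set_option linter.style.haveILetI false
set_option linter.unusedSimpArgs false

open Polynomial IntermediateField

namespace Vale.Agent.P297.H721

open Vale.Agent.P297 Vale.Agent.P297.H288 Vale.Agent.P297.H72 Vale.Agent.P297.H637
open Vale.Agent.P297.H80 Vale.Agent.P297.Gen Vale.Agent.P297.H54 Vale.Agent.P297.H424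
open Vale.Agent.P297.H839 Vale.Agent.P297.H777

section cyc

variable {K : Type} [Field K] [Algebra ℂ K]

/-- the polynomial of the points of the surface on the conic -/
noncomputable def Fz (P : Par) {L : Type} [Field L] [Algebra ℂ L] (c : Fin 4 → L) (v : Fin 2 → L) :
    L[X] := Fx (ee (zN P) (uu c v)) (ff2 P (c 0) (v 0)) (v 1) (c 3) (c 2) (c 1)
      (3 * (v 0 + c 0 + 1)) (h0 P (c 0) (v 0))

/-- the coordinate `D` on the conic -/
noncomputable def Dz (P : Par) {L : Type} [Field L] [Algebra ℂ L] (c : Fin 4 → L) (v : Fin 2 → L)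
    (r : L) : L := (Nx (ff2 P (c 0) (v 0)) (v 1) (c 3) (c 2) (c 1) (3 * (v 0 + c 0 + 1))
      (h0 P (c 0) (v 0))).eval r / (Mx (ff2 P (c 0) (v 0)) (v 1) (3 * (v 0 + c 0 + 1))).eval r

/-- the coordinate `α` on the conic -/
noncomputable def Az (P : Par) {L : Type} [Field L] [Algebra ℂ L] (c : Fin 4 → L) (v : Fin 2 → L)
    (r : L) : L := v 1 * (Kx (v 1) (c 3) (c 2) (c 1) (3 * (v 0 + c 0 + 1))
      (h0 P (c 0) (v 0))).eval r / (Mx (ff2 P (c 0) (v 0)) (v 1) (3 * (v 0 + c 0 + 1))).eval r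

/-- the point with the coordinates `D`, `α` -/
noncomputable def pz (x : Fin 4 → K) {L : Type} [Field L] [Algebra ℂ L] (δ B ν : L)
    (w : Fin 3 → L) (D α : L) : (K →ₐ[ℂ] L) →₀ ℤ :=
  H288.pt x (crd δ B D (az ν w D) (tz ν w D α))

/-- **The cycle of the points of the surface on the conic.** -/
noncomputable def Vz (P : Par) (x : Fin 4 → K) (L : Type) [Field L] [Algebra ℂ L]
    (c : Fin 4 → L) (v : Fin 2 → L) : (K →ₐ[ℂ] L) →₀ ℤ :=
  ((Fz P c v).roots.map fun r => pz x (c 0) (v 0) (v 1) (ww c) (Dz P c v r) (Az P c v r)).sum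

section map

variable {L L' : Type} [Field L] [Algebra ℂ L] [Field L'] [Algebra ℂ L'] {P : Par} (g : L →ₐ[ℂ] L')

theorem map_Fz (c : Fin 4 → L) (v : Fin 2 → L) : (Fz P c v).map (g : L →+* L') =
    Fz P (fun i => g (c i)) (fun i => g (v i)) := by
  unfold Fz
  rw [Fx_map]
  have h1 : (fun a b => (g : L →+* L') (ee (zN P) (uu c v) a b)) =
      ee (zN P) (uu (fun i => g (c i)) (fun i => g (v i))) := by
    funext a b
    rw [← map_uu]
    exact map_ee _ g _ a b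
  rw [h1]
  have h2 : (g : L →+* L') (ff2 P (c 0) (v 0)) = ff2 P (g (c 0)) (g (v 0)) := map_ff2 g _ _
  have h3 : (g : L →+* L') (h0 P (c 0) (v 0)) = h0 P (g (c 0)) (g (v 0)) := map_h0 g _ _
  have h4 : (g : L →+* L') (3 * (v 0 + c 0 + 1)) = 3 * (g (v 0) + g (c 0) + 1) := map_H1 g _ _
  rw [h2, h3, h4]
  rfl

theorem map_Kz (c : Fin 4 → L) (v : Fin 2 → L) (r : L) :
    g ((Kx (v 1) (c 3) (c 2) (c 1) (3 * (v 0 + c 0 + 1)) (h0 P (c 0) (v 0))).eval r) =
      (Kx (g (v 1)) (g (c 3)) (g (c 2)) (g (c 1)) (3 * (g (v 0) + g (c 0) + 1))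
        (h0 P (g (c 0)) (g (v 0)))).eval (g r) := by
  rw [Kx_eval, Kx_eval, ← map_h0, ← map_H1]
  simp only [map_add, map_sub, map_mul, map_pow]

theorem map_Dz (c : Fin 4 → L) (v : Fin 2 → L) (r : L) :
    g (Dz P c v r) = Dz P (fun i => g (c i)) (fun i => g (v i)) (g r) := by
  unfold Dz
  rw [Nx_eval, Nx_eval, map_div₀, map_add, map_mul, map_mul, map_mul, map_Mo, map_Kz]

theorem map_Az (c : Fin 4 → L) (v : Fin 2 → L) (r : L) :
    g (Az P c v r) = Az P (fun i => g (c i)) (fun i => g (v i)) (g r) := by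
  unfold Az
  rw [map_div₀, map_mul, map_Mo, map_Kz]

theorem map_pz {x : Fin 4 → K} (hx : H288.IsFF P x) (δ B ν : L) (w : Fin 3 → L) (D α : L) :
    Finsupp.mapDomain (fun φ : K →ₐ[ℂ] L => g.comp φ) (pz x δ B ν w D α) =
      pz x (g δ) (g B) (g ν) (fun i => g (w i)) (g D) (g α) := by
  unfold pz
  rw [map_pt_all hx]
  congr 1
  funext j
  rw [map_crd]
  congr 1
  · simp only [az, map_mul, map_sub, map_div₀]
  · simp only [tz, map_mul, map_sub, map_pow, map_div₀]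

theorem map_Vz [IsAlgClosed L] {x : Fin 4 → K} (hx : H288.IsFF P x) (c : Fin 4 → L) (v : Fin 2 → L) :
    Finsupp.mapDomain (fun φ : K →ₐ[ℂ] L => g.comp φ) (Vz P x L c v) =
      Vz P x L' (fun i => g (c i)) (fun i => g (v i)) := by
  unfold Vz
  rw [sum_roots_map g (Fz P c v) _ (fun r => pz x (g (c 0)) (g (v 0)) (g (v 1))
    (ww (fun i => g (c i))) (Dz P (fun i => g (c i)) (fun i => g (v i)) r)
    (Az P (fun i => g (c i)) (fun i => g (v i)) r)) (fun r _ => by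
      rw [map_pz g hx, map_Dz, map_Az]
      congr 1
      funext i
      fin_cases i <;> rfl), map_Fz]

end map

end cyc

section line

variable {N : Type} [Field N] [Algebra ℂ N] {P : Par} {δ B : N} {w n : Fin 3 → N}

theorem lab_swp (h : Lab P δ B w n) : Lab P δ B (swp w) (swp n) where
  w1 := by
    rw [swp_zero, swp_one, swp_two, ← h.w1]
    ring
  w2 := by
    rw [swp_zero, swp_one, swp_two, ← h.w2]
    ring
  w3 := by
    rw [swp_zero, swp_one, swp_two, ← h.w3]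
    ring
  n1 := by
    rw [swp_zero, swp_one, swp_two, ← h.n1]
    ring
  n2 := by
    rw [swp_zero, swp_one, swp_two, swp_zero, swp_one, swp_two, ← h.n2]
    ring
  n3 := by
    rw [swp_zero, swp_one, swp_two, ← h.n3]
    ring

theorem az_line (w n : Fin 3 → N) (D : N) : az (n 0) w D = la w n D := rfl

theorem tz_line (w n : Fin 3 → N) (D : N) : tz (n 0) w D ((D - w 1) / n 2) = lt w n D := by
  unfold tz lt
  rw [mul_div_assoc', div_div]
  congr 1
  · ring
  · ring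

theorem z_line (h0 : n 0 ≠ 0) (h2 : n 2 ≠ 0) (D : N) :
    z0 P δ B (n 0) (w 1) (w 2) D + z1 P δ B (n 0) (w 1) (w 2) D * ((D - w 1) / n 2) +
      z2 P B (w 1) (w 2) D * ((D - w 1) / n 2) ^ 2 = ((n 2)⁻¹) ^ 2 * p6 P δ B w n D := by
  rw [z_eS w h0, az_line, tz_line, p6_eq h0 h2]
  field_simp

/-- the form of the degenerate member -/
theorem ee_z (δ B ν : N) (w : Fin 3 → N) (D α : N) :
    Ef (ee (zN P) (uu (cD δ w) ![B, ν])) D α 1 = z0 P δ B ν (w 1) (w 2) D +
      z1 P δ B ν (w 1) (w 2) D * α + z2 P B (w 1) (w 2) D * α ^ 2 :=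
  ee_one (zN P) (dgs_zN P) _ D α

theorem Qz_line1 [Infinite N] (h0 : n 0 ≠ 0) (h2 : n 2 ≠ 0) :
    Qx (ee (zN P) (uu (cD δ w) ![B, n 0])) (n 2) (w 1) = C (((n 2)⁻¹) ^ 2) * P6 P δ B w n := by
  refine Polynomial.funext fun D => ?_
  rw [Qx_eval, ee_z, eval_mul, eval_C, P6_eval, z_line h0 h2]

theorem Qz_line2 [Infinite N] (h0 : n 0 ≠ 0) (h1 : n 1 ≠ 0) :
    Qx (ee (zN P) (uu (cD δ w) ![B, n 0])) (n 1) (w 2) =
      C (((n 1)⁻¹) ^ 2) * P6 P δ B (swp w) (swp n) := by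
  refine Polynomial.funext fun D => ?_
  have h3 := z_line (P := P) (δ := δ) (B := B) (w := swp w) (n := swp n) h0 h1 D
  rw [swp_zero, swp_one, swp_two, swp_two] at h3
  rw [Qx_eval, ee_z, eval_mul, eval_C, P6_eval, ← h3]
  unfold z0 z1 z2
  ring

end line

section spec

variable {K N N₁ : Type} [Field K] [Algebra ℂ K] [Field N] [Algebra ℂ N] [Field N₁] [Algebra ℂ N₁]
  [Algebra N N₁] [IsScalarTower ℂ N N₁] {V : Plc N N₁} {P : Par} {x : Fin 4 → K}

/-- **The moving points of the conics specialise to the points of the degenerate member.** -/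
theorem spec_z (hx : H288.IsFF P x) {δ₁ B₁ ν₁ D₁ α₁ : N₁} {w₁ : Fin 3 → N₁} {δ B ν D α : N}
    {w : Fin 3 → N} (hδ : V.Val δ₁ δ) (hB : V.Val B₁ B) (hν : V.Val ν₁ ν) (hν0 : ν ≠ 0)
    (hw : ∀ i, V.Val (w₁ i) (w i)) (hD : V.Val D₁ D) (hα : V.Val α₁ α)
    (hfac : ff0 P δ₁ D₁ = (D₁ - w₁ 0) * (D₁ - w₁ 1) * (D₁ - w₁ 2))
    (ha : az ν w D ≠ 0) (ht : tz ν w D α ≠ 0)
    (hc : Cn (3 * (B₁ + δ₁ + 1)) (h0 P δ₁ B₁) (ff2 P δ₁ B₁) ν₁ (w₁ 2) (w₁ 1) (w₁ 0) D₁ α₁ = 0)
    (he : z0 P δ₁ B₁ ν₁ (w₁ 1) (w₁ 2) D₁ + z1 P δ₁ B₁ ν₁ (w₁ 1) (w₁ 2) D₁ * α₁ +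
      z2 P B₁ (w₁ 1) (w₁ 2) D₁ * α₁ ^ 2 = 0)
    (hg : GenS P (crd δ B D (az ν w D) (tz ν w D α))) :
    (pz x δ₁ B₁ ν₁ w₁ D₁ α₁, pz x δ B ν w D α) ∈ SpecC K V := by
  have va : V.Val (az ν₁ w₁ D₁) (az ν w D) :=
    ((hD.sub (hw 1)).mul (hD.sub (hw 2))).div hν hν0
  have vt : V.Val (tz ν₁ w₁ D₁ α₁) (tz ν w D α) :=
    (((hD.sub (hw 1)).mul (hD.sub (hw 2))).mul hα).div (hν.pow 2) (pow_ne_zero 2 hν0)
  obtain ⟨h1, h2⟩ := on_z (P := P) hfac (hν.ne_zero hν0) (va.ne_zero ha) (vt.ne_zero ht) hc he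
  refine H521.specC_pt hx h1 h2 (fun j => ?_) hg
  fin_cases j
  · exact (hB.add hD).add (H521.val_three'.mul hδ)
  · exact va.add hD
  · exact hB.add (va.div vt ht)
  · exact vt

end spec

section near

variable {N N₁ : Type} [Field N] [Algebra ℂ N] [Field N₁] [Algebra ℂ N₁]
  [Algebra N N₁] [IsScalarTower ℂ N N₁] {V : Plc N N₁} {P : Par} {δ B : N} {w n : Fin 3 → N}

/-- The nearby member of the first pencil. -/
theorem mv_z (h : Lab P δ B w n) {l : N₁} (hl0 : l ≠ 0) (hl : V.Val l 0) {y : Fin 2 → N₁}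
    (hy0 : V.Val (y 0) 0) (hy1 : V.Val (y 1) 1) :
    Mv V (n 2) (n 1) (n 0) (w 2) (w 1) (w 0) l (y 1)
      (3 * (algebraMap N N₁ δ + 1) * y 0) (3 * y 0)
      (y 0 * (3 * algebraMap N N₁ B ^ 2 + 3 * algebraMap N N₁ B * (l * y 0) + (l * y 0) ^ 2 -
        algebraMap ℂ N₁ (P.t 2) + algebraMap N N₁ δ * (6 * algebraMap N N₁ B + 3 * (l * y 0) -
          algebraMap ℂ N₁ (P.z 2))))
      (algebraMap N N₁ (n 0) + l * y 1)
      (3 * (algebraMap N N₁ B + l * y 0 + algebraMap N N₁ δ + 1))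
      (h0 P (algebraMap N N₁ δ) (algebraMap N N₁ B + l * y 0))
      (ff2 P (algebraMap N N₁ δ) (algebraMap N N₁ B + l * y 0)) where
  hl0 := hl0
  hl := hl
  hy := hy1
  hz0 := (mv_o h hl0 hl hy0 hy1).hz0
  hz1 := (mv_o h hl0 hl hy0 hy1).hz1
  hz2 := (mv_o h hl0 hl hy0 hy1).hz2
  hν := rfl
  hH1 := by
    rw [(mv_o h hl0 hl hy0 hy1).hH1]
    congr 2
    ring
  hH0 := by
    rw [(mv_o h hl0 hl hy0 hy1).hH0]
    congr 2
    ring
  hf2 := by
    rw [(mv_o h hl0 hl hy0 hy1).hf2]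
    congr 2
    ring

end near

section main

variable {K N N₁ : Type} [Field K] [Algebra ℂ K] [Field N] [Algebra ℂ N] [IsAlgClosed N] [Field N₁]
  [Algebra ℂ N₁] [IsAlgClosed N₁] [Algebra N N₁] [IsScalarTower ℂ N N₁] {V : Plc N N₁} {P : Par}
  {x : Fin 4 → K} {δ B : N} {w n : Fin 3 → N}

/-- the sum over the first line -/
theorem sumz_line1 (h0 : n 0 ≠ 0) (h2 : n 2 ≠ 0) :
    ((Qx (ee (zN P) (uu (cD δ w) ![B, n 0])) (n 2) (w 1)).roots.map fun D =>
      pz x δ B (n 0) w D ((D - w 1) / n 2)).sum = Bsig P x δ B w n := by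
  rw [Qz_line1 h0 h2, roots_C_mul _ (pow_ne_zero 2 (inv_ne_zero h2))]
  unfold Bsig
  congr 1
  refine Multiset.map_congr rfl fun D _ => ?_
  unfold pz
  rw [az_line, tz_line]
  rfl

/-- the sum over the second line -/
theorem sumz_line2 (h0 : n 0 ≠ 0) (h1 : n 1 ≠ 0) :
    ((Qx (ee (zN P) (uu (cD δ w) ![B, n 0])) (n 1) (w 2)).roots.map fun D =>
      pz x δ B (n 0) w D ((D - w 2) / n 1)).sum = Bsig P x δ B (swp w) (swp n) := by
  rw [Qz_line2 h0 h1, roots_C_mul _ (pow_ne_zero 2 (inv_ne_zero h1))]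
  unfold Bsig
  congr 1
  refine Multiset.map_congr rfl fun D _ => ?_
  have e1 : az (n 0) w D = la (swp w) (swp n) D := by
    unfold az la
    rw [swp_one, swp_two, swp_zero, mul_comm (D - w 1)]
  have e2 : tz (n 0) w D ((D - w 2) / n 1) = lt (swp w) (swp n) D := by
    rw [← tz_line (swp w) (swp n) D]
    unfold tz
    rw [swp_one, swp_two, swp_zero, swp_two, mul_comm (D - w 1)]
  unfold pz Lpt
  rw [e1, e2]

/-- **The specialisation of the first pencil.** -/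
theorem spec_Vz (hx : H288.IsFF P x) (hδ : Transcendental ℂ δ) (h : Lab P δ B w n)
    (hB : B ∉ cl0 ({δ} : Set N)) (hw : w 2 ≠ w 1)
    (hΘ : n 0 * n 1 * (w 0 - w 1) + n 2 * n 1 * (w 1 - w 2) + n 0 * n 2 * (w 2 - w 0) ≠ 0)
    {l : N₁} (hl0 : l ≠ 0) (hl : V.Val l 0) {y : Fin 2 → N₁}
    (hy : ∀ i, V.Val (y i) ((![0, 1] : Fin 2 → N) i)) :
    (Vz P x N₁ (fun i => algebraMap N N₁ (cD δ w i))
      (fun i => algebraMap N N₁ ((![B, n 0] : Fin 2 → N) i) + l * y i),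
      Bsig P x δ B w n + Bsig P x δ B (swp w) (swp n)) ∈ SpecC K V := by
  have hirr := hx.irr
  have hco := H278.coprime_of_irr hirr
  have hF := cl0_closed ({δ} : Set N)
  have hδF : δ ∈ cl0 ({δ} : Set N) := subset_cl0 _ (Set.mem_singleton δ)
  have hn := h.n_ne hF hδF hB
  have h0 := hn 0
  have h1 := hn 1
  have h2 := hn 2
  have h' := lab_swp h
  have hy0 : V.Val (y 0) 0 := hy 0
  have hy1 : V.Val (y 1) 1 := hy 1
  have hd : (P6 P δ B w n).natDegree = 6 := h.P6_natDegree hF hδF (h.w_mem hF hδF) hB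
  have hd' : (P6 P δ B (swp w) (swp n)).natDegree = 6 :=
    h'.P6_natDegree hF hδF (h'.w_mem hF hδF) hB
  have vB : V.Val (algebraMap N N₁ B + l * y 0) B := by
    have h3 := (V.val_const B).add (hl.mul hy0)
    rwa [zero_mul, add_zero] at h3
  have vn : V.Val (algebraMap N N₁ (n 0) + l * y 1) (n 0) := by
    have h3 := (V.val_const (n 0)).add (hl.mul hy1)
    rwa [zero_mul, add_zero] at h3
  have vu : ∀ i, V.Val (uu (fun i => algebraMap N N₁ (cD δ w i))
      (fun i => algebraMap N N₁ ((![B, n 0] : Fin 2 → N) i) + l * y i) i)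
      (uu (cD δ w) ![B, n 0] i) := by
    intro i
    fin_cases i
    · exact V.val_const δ
    · exact vB
    · exact vn
    · exact V.val_const (w 1)
    · exact V.val_const (w 2)
  have key := pencil_spec (K := K) (P := V) h2 h1 h0 hw (by
      intro h3
      apply hΘ
      linear_combination h3) (mv_z h hl0 hl hy0 hy1)
    (fun a b => val_ee (zN P) vu a b)
    (by
      have h3 := ee_z (P := P) δ B (n 0) w (w 1) 0
      rw [h3, mul_zero, zero_pow (by norm_num), mul_zero, add_zero, add_zero]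
      have h4 : z0 P δ B (n 0) (w 1) (w 2) (w 1) = n 0 ^ 4 * A0 P (w 1) := by
        unfold z0
        ring
      rw [h4]
      exact mul_ne_zero (pow_ne_zero 4 h0) (A0_ne hco (h.ff0_w 1)))
    (by rw [Qz_line1 h0 h2, natDegree_C_mul (pow_ne_zero 2 (inv_ne_zero h2)), hd])
    (by rw [Qz_line2 h0 h1, natDegree_C_mul (pow_ne_zero 2 (inv_ne_zero h1)), hd'])
    (fun D α => pz x (algebraMap N N₁ δ) (algebraMap N N₁ B + l * y 0)
      (algebraMap N N₁ (n 0) + l * y 1) (fun i => algebraMap N N₁ (w i)) D α)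
    (fun D α => pz x δ B (n 0) w D α) ?_
  · rw [sumz_line1 h0 h2, sumz_line2 h0 h1] at key
    exact key
  · intro D₁ α₁ D α hD hα hc he hlim
    have hg : GenS P (crd δ B D (az (n 0) w D) (tz (n 0) w D α)) ∧ az (n 0) w D ≠ 0 ∧
        tz (n 0) w D α ≠ 0 := by
      rcases hlim with ⟨hQ, rfl⟩ | ⟨hQ, rfl⟩
      · rw [Qz_line1 h0 h2, eval_mul, eval_C] at hQ
        have hQ' := (mul_eq_zero.1 hQ).resolve_left (pow_ne_zero 2 (inv_ne_zero h2))
        obtain ⟨-, -, k1, k2, -, -⟩ := h.root hF hδF hB hco hQ'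
        rw [az_line, tz_line]
        exact ⟨h.genS_root hirr hδ hB hQ', k1, k2⟩
      · rw [Qz_line2 h0 h1, eval_mul, eval_C] at hQ
        have hQ' := (mul_eq_zero.1 hQ).resolve_left (pow_ne_zero 2 (inv_ne_zero h1))
        obtain ⟨-, -, k1, k2, -, -⟩ := h'.root hF hδF hB hco hQ'
        have e1 : az (n 0) w D = la (swp w) (swp n) D := by
          unfold az la
          rw [swp_one, swp_two, swp_zero, mul_comm (D - w 1)]
        have e2 : tz (n 0) w D ((D - w 2) / n 1) = lt (swp w) (swp n) D := by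
          rw [← tz_line (swp w) (swp n) D]
          unfold tz
          rw [swp_one, swp_two, swp_zero, swp_two, mul_comm (D - w 1)]
        rw [e1, e2]
        exact ⟨h'.genS_root hirr hδ hB hQ', k1, k2⟩
    obtain ⟨hg1, hg2, hg3⟩ := hg
    refine spec_z hx (V.val_const δ) vB vn h0 (fun i => V.val_const (w i)) hD hα ?_ hg2 hg3 hc ?_ hg1
    · exact (h.map (IsScalarTower.toAlgHom ℂ N N₁)).ff0_eq D₁
    · have h3 : Ef (ee (zN P) (uu (cD (algebraMap N N₁ δ) (fun i => algebraMap N N₁ (w i)))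
          ![algebraMap N N₁ B + l * y 0, algebraMap N N₁ (n 0) + l * y 1])) D₁ α₁ 1 = 0 := by
        have h4 : uu (cD (algebraMap N N₁ δ) (fun i => algebraMap N N₁ (w i)))
            ![algebraMap N N₁ B + l * y 0, algebraMap N N₁ (n 0) + l * y 1] =
            uu (fun i => algebraMap N N₁ (cD δ w i))
              (fun i => algebraMap N N₁ ((![B, n 0] : Fin 2 → N) i) + l * y i) := by
          funext i
          fin_cases i <;> rfl
        rw [h4]
        exact he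
      rw [ee_z] at h3
      exact h3

/-- **The relation of the first pencil.** -/
theorem R0_of [CharZero N] {m : ℤ} (hx : H288.IsFF P x) (hfree : FreeS P)
    (hδ : Transcendental ℂ δ) : R0 m P x δ := by
  intro e v β n β' n' h h'
  have hco := H278.coprime_of_irr hx.irr
  have hF := cl0_closed ({δ} : Set N)
  have hδF : δ ∈ cl0 ({δ} : Set N) := subset_cl0 _ (Set.mem_singleton δ)
  have hF0 := cl0_closed (∅ : Set N)
  have hδ0 := notMem_empty_of_transcendental hδ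
  have hr := (GD.lab h).rt
  have h1 := hr.ne (F := cl0 (∅ : Set N)) hF0 hco hδ0
  have h2 := hr.rot.ne (F := cl0 (∅ : Set N)) hF0 hco hδ0
  have h3 := hr.rot.rot.ne (F := cl0 (∅ : Set N)) hF0 hco hδ0
  have hΘ : ∀ {B : N} {n : Fin 3 → N}, GD P δ e v B n →
      n 0 * n 1 * (v 0 - v 1) + n 2 * n 1 * (v 1 - v 2) + n 0 * n 2 * (v 2 - v 0) ≠ 0 := by
    intro B n hg h4
    have key := thet_ne (GD.lab hg) hF hδF hg.gen
      (mul_ne_zero (mul_ne_zero (sub_ne_zero.2 h1) (sub_ne_zero.2 h2)) (sub_ne_zero.2 h3))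
      (disc_cf2_tr hfree hδ)
    apply key
    unfold thet
    linear_combination h4
  exact multi_specC2 (K := K) (m := m) (fun L _ _ _ c v => Vz P x L c v)
    (fun L L' _ _ _ _ _ _ g c v => map_Vz g hx c v) (cD δ v) ![β, n 0] ![0, 1] ![β', n' 0] ![0, 1]
    _ _
    (fun N₁ _ _ _ _ _ V l y hl0 hl hy _ =>
      spec_Vz hx hδ (GD.lab h) h.gen h2.symm (hΘ h) hl0 hl hy)
    (fun N₁ _ _ _ _ _ V l y hl0 hl hy _ =>
      spec_Vz hx hδ (GD.lab h') h'.gen h2.symm (hΘ h') hl0 hl hy)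

end main

end Vale.Agent.P297.H721
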