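import Vale.Agent.P297.H777.Z3Smooth

/-!
The condition `FreeS` holds outside of a hypersurface of the space of parameters.
-/

namespace Vale.Agent.P297.H721

open Vale.Agent.P297.H288 MvPolynomial

/-- the resultant of `3 x² - p x - q` and `x³ - r x - s` -/
def rs {R : Type} [CommRing R] (p q r s : R) : R :=
  3 * (p * q - 9 * s) ^ 2 + p * (p ^ 2 + 3 * q - 9 * r) * (p * q - 9 * s) -
    q * (p ^ 2 + 3 * q - 9 * r) ^ 2

theorem rs_eq_zero {R : Type} [CommRing R] {p q r s c : R} (h1 : 3 * c ^ 2 - p * c - q = 0)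
    (h2 : c ^ 3 - r * c - s = 0) : rs p q r s = 0 := by
  have h3 : (p ^ 2 + 3 * q - 9 * r) * c + (p * q - 9 * s) = 0 := by
    linear_combination 9 * h2 - (3 * c + p) * h1
  unfold rs
  linear_combination (3 * ((p * q - 9 * s) - (p ^ 2 + 3 * q - 9 * r) * c) +
    p * (p ^ 2 + 3 * q - 9 * r)) * h3 + (p ^ 2 + 3 * q - 9 * r) ^ 2 * h1

/-- the polynomial -/
noncomputable def frP : MvPolynomial (Fin 8) ℂ := rs (X 3) (X 1) (X 7) (X 5) * rs (X 2) (X 0) (X 6) (X 4)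

theorem eval_frP (z t : Fin 4 → ℂ) : eval (Fin.append z t) frP =
    rs (z 3) (z 1) (t 3) (t 1) * rs (z 2) (z 0) (t 2) (t 0) := by
  have e0 : Fin.append z t (0 : Fin 8) = z 0 := rfl
  have e1 : Fin.append z t (1 : Fin 8) = z 1 := rfl
  have e2 : Fin.append z t (2 : Fin 8) = z 2 := rfl
  have e3 : Fin.append z t (3 : Fin 8) = z 3 := rfl
  have e4 : Fin.append z t (4 : Fin 8) = t 0 := rfl
  have e5 : Fin.append z t (5 : Fin 8) = t 1 := rfl
  have e6 : Fin.append z t (6 : Fin 8) = t 2 := rfl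
  have e7 : Fin.append z t (7 : Fin 8) = t 3 := rfl
  simp only [frP, rs, map_mul, map_add, map_sub, map_pow, map_ofNat, eval_X, e0, e1, e2, e3, e4,
    e5, e6, e7]

theorem frP_ne_zero : frP ≠ 0 := by
  intro h
  have h1 := eval_frP 0 ![1, 1, 0, 0]
  rw [h, map_zero] at h1
  simp [rs] at h1

/-- **Freeness is generic.** -/
theorem freeS_of_eval {z t : Fin 4 → ℂ} (h : eval (Fin.append z t) frP ≠ 0) :
    FreeS ⟨z, t⟩ := by
  rw [eval_frP] at h
  refine ⟨fun c hc => ?_, fun c hc => ?_⟩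
  · exact h (mul_eq_zero_of_left (rs_eq_zero hc.1 hc.2) _)
  · exact h (mul_eq_zero_of_right _ (rs_eq_zero hc.1 hc.2))

theorem freeS_poly : ∃ F : MvPolynomial (Fin 8) ℂ, F ≠ 0 ∧ ∀ z t : Fin 4 → ℂ,
    eval (Fin.append z t) F ≠ 0 → FreeS ⟨z, t⟩ :=
  ⟨frP, frP_ne_zero, fun _ _ h => freeS_of_eval h⟩

end Vale.Agent.P297.H721
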