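import Vale.Agent.P297.H278.SixGen
import Vale.Agent.P297.H521.Z3Spec
import Vale.Agent.P297.H80.Z3.Pencil2
import Vale.Agent.P297.H637.Jet
import Vale.Agent.P297.H637.MSpec
import Vale.Agent.P297.H424.Z3.Asm

/-!
The surface on the conics of the two pencils: the equation of the surface as a form of degree six,
its restriction to the two lines of the degenerate members.
-/

set_option linter.unusedSectionVars false
set_option linter.style.haveILetI false
set_option linter.unusedSimpArgs false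

open Polynomial

namespace Vale.Agent.P297.H721

open Vale.Agent.P297 Vale.Agent.P297.H288 Vale.Agent.P297.H72 Vale.Agent.P297.H637
open Vale.Agent.P297.H80

/-- A natural function of five parameters and one variable. -/
structure NatF where
  Φ : ∀ (R : Type) [CommRing R] [Algebra ℂ R], (Fin 5 → R) → R → R
  nat : ∀ (R R' : Type) [CommRing R] [Algebra ℂ R] [CommRing R'] [Algebra ℂ R']
    (f : R →ₐ[ℂ] R') (u : Fin 5 → R) (D : R), f (Φ R u D) = Φ R' (fun i => f (u i)) (f D)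

namespace NatF

variable (F : NatF)

section field

variable {L L' : Type} [Field L] [Algebra ℂ L] [Field L'] [Algebra ℂ L']

/-- the polynomial in the variable -/
noncomputable def poly (u : Fin 5 → L) : L[X] := F.Φ L[X] (fun i => C (u i)) X

theorem eval_poly (u : Fin 5 → L) (D : L) : (F.poly u).eval D = F.Φ L u D := by
  have h := F.nat L[X] L ((aeval D : L[X] →ₐ[L] L).restrictScalars ℂ) (fun i => C (u i)) X
  simp only [AlgHom.restrictScalars_apply, coe_aeval_eq_eval, eval_C, eval_X] at h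
  exact h

theorem map_poly (f : L →ₐ[ℂ] L') (u : Fin 5 → L) :
    (F.poly u).map (f : L →+* L') = F.poly (fun i => f (u i)) := by
  have h := F.nat L[X] L'[X] (Polynomial.mapAlgHom f) (fun i => C (u i)) X
  simp only [Polynomial.coe_mapAlgHom, map_C, map_X] at h
  exact h

end field

section place

variable {N N₁ : Type} [Field N] [Algebra ℂ N] [Field N₁] [Algebra ℂ N₁] [Algebra N N₁]
  [IsScalarTower ℂ N N₁] {V : Plc N N₁}

theorem pval_poly {u : Fin 5 → N₁} {u₀ : Fin 5 → N} (hu : ∀ i, V.Val (u i) (u₀ i)) :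
    PVal V (F.poly u) (F.poly u₀) := by
  let T := PSub V
  let U : Fin 5 → T := fun i => ⟨(C (u i), C (u₀ i)), PVal.C (hu i)⟩
  let τ : T := ⟨(X, X), PVal.X⟩
  let f1 : T →ₐ[ℂ] N₁[X] := (AlgHom.fst ℂ N₁[X] N[X]).comp T.val
  let f2 : T →ₐ[ℂ] N[X] := (AlgHom.snd ℂ N₁[X] N[X]).comp T.val
  have h1 : f1 (F.Φ T U τ) = F.poly u := F.nat T N₁[X] f1 U τ
  have h2 : f2 (F.Φ T U τ) = F.poly u₀ := F.nat T N[X] f2 U τ
  have h3 : PVal V (f1 (F.Φ T U τ)) (f2 (F.Φ T U τ)) := (F.Φ T U τ).2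
  rwa [h1, h2] at h3

end place

end NatF

section defs

variable {R : Type} [CommRing R] [Algebra ℂ R] (P : Par)

def z0 (δ B ν w1 w2 D : R) : R := 9 * ν ^ 2 * ((D - w1) * (D - w2)) ^ 2 +
  ν ^ 3 * ((D - w1) * (D - w2)) * kk0 P δ B D + ν ^ 4 * A0 P D

def z1 (δ B ν w1 w2 D : R) : R := ν * ((D - w1) * (D - w2)) ^ 2 * kk2 P δ B D +
  ν ^ 2 * ((D - w1) * (D - w2)) * kk1 P δ B D

def z2 (B w1 w2 D : R) : R := ((D - w1) * (D - w2)) ^ 2 * A2 P B

def o0 (f D : R) : R := f ^ 2 * A0 P D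

def o1 (δ B ν f w1 D : R) : R := f ^ 2 * (D - w1) * kk0 P δ B D +
  f * ν * (D - w1) ^ 2 * kk1 P δ B D

def o2 (δ B ν f w1 D : R) : R := 9 * f ^ 2 * (D - w1) ^ 2 + f * ν * (D - w1) ^ 3 * kk2 P δ B D +
  ν ^ 2 * (D - w1) ^ 4 * A2 P B

end defs

/-- the coefficients of the form on the conics of the first pencil; the parameters are `δ`, `B`,
`ν`, `w₁`, `w₂` -/
noncomputable def zN (P : Par) : Fin 3 → NatF := ![
  ⟨fun _ _ _ u D => z0 P (u 0) (u 1) (u 2) (u 3) (u 4) D, fun R R' _ _ _ _ f u D => by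
    simp only [z0, map_add, map_sub, map_mul, map_pow, map_ofNat, map_kk0, map_A0]⟩,
  ⟨fun _ _ _ u D => z1 P (u 0) (u 1) (u 2) (u 3) (u 4) D, fun R R' _ _ _ _ f u D => by
    simp only [z1, map_add, map_sub, map_mul, map_pow, map_ofNat, map_kk1, map_kk2]⟩,
  ⟨fun _ _ _ u D => z2 P (u 1) (u 3) (u 4) D, fun R R' _ _ _ _ f u D => by
    simp only [z2, map_add, map_sub, map_mul, map_pow, map_ofNat, map_A2]⟩]

/-- the coefficients of the form on the conics of the second pencil; the parameters are `δ`, `B`,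
`ν`, `w₁` (and `w₂`) -/
noncomputable def oN (P : Par) : Fin 3 → NatF := ![
  ⟨fun _ _ _ u D => o0 P (ff2 P (u 0) (u 1)) D, fun R R' _ _ _ _ f u D => by
    simp only [o0, map_add, map_sub, map_mul, map_pow, map_ofNat, map_ff2, map_A0]⟩,
  ⟨fun _ _ _ u D => o1 P (u 0) (u 1) (u 2) (ff2 P (u 0) (u 1)) (u 3) D,
    fun R R' _ _ _ _ f u D => by
    simp only [o1, map_add, map_sub, map_mul, map_pow, map_ofNat, map_kk1, map_kk0, map_ff2]⟩,
  ⟨fun _ _ _ u D => o2 P (u 0) (u 1) (u 2) (ff2 P (u 0) (u 1)) (u 3) D,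
    fun R R' _ _ _ _ f u D => by
    simp only [o2, map_add, map_sub, map_mul, map_pow, map_ofNat, map_kk2, map_A2, map_ff2]⟩]

/-- the list of the coefficients -/
noncomputable def qq (F : Fin 3 → NatF) {L : Type} [Field L] [Algebra ℂ L] (u : Fin 5 → L) :
    ℕ → L[X] := fun b => if h : b < 3 then (F ⟨b, h⟩).poly u else 0

/-- the coefficients of the form of degree six -/
noncomputable def ee (F : Fin 3 → NatF) {L : Type} [Field L] [Algebra ℂ L] (u : Fin 5 → L) :
    ℕ → ℕ → L := fun a b => (qq F u b).coeff a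

section ee

variable {L L' : Type} [Field L] [Algebra ℂ L] [Field L'] [Algebra ℂ L'] (F : Fin 3 → NatF)

theorem map_ee (f : L →ₐ[ℂ] L') (u : Fin 5 → L) (a b : ℕ) :
    f (ee F u a b) = ee F (fun i => f (u i)) a b := by
  unfold ee qq
  split_ifs with h
  · rw [← NatF.map_poly, coeff_map]
    rfl
  · simp

theorem val_ee {N N₁ : Type} [Field N] [Algebra ℂ N] [Field N₁] [Algebra ℂ N₁] [Algebra N N₁]
    [IsScalarTower ℂ N N₁] {V : Plc N N₁} {u : Fin 5 → N₁} {u₀ : Fin 5 → N}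
    (hu : ∀ i, V.Val (u i) (u₀ i)) (a b : ℕ) : V.Val (ee F u a b) (ee F u₀ a b) := by
  unfold ee qq
  split_ifs with h
  · exact (F ⟨b, h⟩).pval_poly hu a
  · simpa using V.val_zero

/-- the degrees -/
def Dgs (F : Fin 3 → NatF) : Prop := ∀ (L : Type) [Field L] [Algebra ℂ L] (u : Fin 5 → L)
  (b : Fin 3), ((F b).poly u).natDegree ≤ 6 - (b : ℕ)

theorem ee_one (hF : Dgs F) (u : Fin 5 → L) (x y : L) : Ef (ee F u) x y 1 =
    (F 0).Φ L u x + (F 1).Φ L u x * y + (F 2).Φ L u x * y ^ 2 := by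
  have h1 := Ef_one (qq F u) (fun b _ => by
    unfold qq
    split_ifs with h
    · exact hF L u ⟨b, h⟩
    · simp) x y
  have h2 : Ef (ee F u) x y 1 = Ef (fun a b => (qq F u b).coeff a) x y 1 := rfl
  rw [h2, h1, ← NatF.eval_poly, ← NatF.eval_poly, ← NatF.eval_poly]
  simp only [Finset.sum_range_succ, Finset.sum_range_zero, qq]
  simp

end ee

theorem dgs_zN (P : Par) : Dgs (zN P) := by
  intro L _ _ u b
  have hz : (zz P : L[X]) = C (zz P) := by
    unfold zz
    rw [C_add]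
    rfl
  have hc : ∀ c : ℂ, algebraMap ℂ L[X] c = C (algebraMap ℂ L c) := fun _ => rfl
  fin_cases b
  · change (z0 P (C (u 0)) (C (u 1)) (C (u 2)) (C (u 3)) (C (u 4)) X : L[X]).natDegree ≤ 6
    unfold z0 kk0 A0
    rw [hz]
    simp only [hc]
    compute_degree
    all_goals omega
  · change (z1 P (C (u 0)) (C (u 1)) (C (u 2)) (C (u 3)) (C (u 4)) X : L[X]).natDegree ≤ 5
    unfold z1 kk2 kk1
    rw [hz]
    simp only [hc]
    compute_degree
  · change (z2 P (C (u 1)) (C (u 3)) (C (u 4)) X : L[X]).natDegree ≤ 4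
    unfold z2
    rw [A2_CC]
    compute_degree

theorem ff2_CC (P : Par) {L : Type} [Field L] [Algebra ℂ L] (δ B : L) :
    ff2 P (C δ : L[X]) (C B) = C (ff2 P δ B) :=
  (map_ff2 (Algebra.ofId L L[X] |>.restrictScalars ℂ) δ B).symm

theorem dgs_oN (P : Par) : Dgs (oN P) := by
  intro L _ _ u b
  have hz : (zz P : L[X]) = C (zz P) := by
    unfold zz
    rw [C_add]
    rfl
  have hc : ∀ c : ℂ, algebraMap ℂ L[X] c = C (algebraMap ℂ L c) := fun _ => rfl
  fin_cases b
  · change (o0 P (ff2 P (C (u 0)) (C (u 1))) X : L[X]).natDegree ≤ 6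
    rw [ff2_CC]
    unfold o0 A0
    simp only [hc]
    compute_degree
    all_goals omega
  · change (o1 P (C (u 0)) (C (u 1)) (C (u 2)) (ff2 P (C (u 0)) (C (u 1))) (C (u 3)) X :
      L[X]).natDegree ≤ 5
    rw [ff2_CC]
    unfold o1 kk0 kk1
    rw [hz]
    simp only [hc]
    compute_degree
    all_goals omega
  · change (o2 P (C (u 0)) (C (u 1)) (C (u 2)) (ff2 P (C (u 0)) (C (u 1))) (C (u 3)) X :
      L[X]).natDegree ≤ 4
    rw [ff2_CC]
    unfold o2 kk2
    rw [A2_CC, hz]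
    compute_degree

section chart

variable {L : Type} [Field L] [Algebra ℂ L] {P : Par}

/-- the coordinate `a` on the conics of the first pencil -/
def az (ν : L) (w : Fin 3 → L) (D : L) : L := (D - w 1) * (D - w 2) / ν

/-- the coordinate `τ` on the conics of the first pencil -/
def tz (ν : L) (w : Fin 3 → L) (D α : L) : L := (D - w 1) * (D - w 2) * α / ν ^ 2

/-- the coordinate `a` on the conics of the second pencil -/
def ao (w : Fin 3 → L) (D α : L) : L := (D - w 1) * α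

/-- the coordinate `τ` on the conics of the second pencil -/
def ot (f ν : L) (w : Fin 3 → L) (D α : L) : L := (D - w 1) ^ 2 * α * ν / f

theorem z_eS {δ B ν D α : L} (w : Fin 3 → L) (hν : ν ≠ 0) :
    z0 P δ B ν (w 1) (w 2) D + z1 P δ B ν (w 1) (w 2) D * α + z2 P B (w 1) (w 2) D * α ^ 2 =
      ν ^ 4 * eS P δ B D (az ν w D) (tz ν w D α) := by
  unfold z0 z1 z2 eS az tz
  field_simp
  ring

theorem o_eS {δ B ν f D α : L} (w : Fin 3 → L) (hf : f ≠ 0) :
    o0 P f D + o1 P δ B ν f (w 1) D * α + o2 P δ B ν f (w 1) D * α ^ 2 =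
      f ^ 2 * eS P δ B D (ao w D α) (ot f ν w D α) := by
  unfold o0 o1 o2 eS ao ot
  field_simp
  ring

/-- the equation of the conic in the letters of `pencil_spec` -/
def Cn (H1 H0 f2 ν wi wj wm D α : L) : L :=
  f2 * α ^ 2 - ν * (H1 * D + H0 - ν * (D - wm)) * α + ν * ((D - wi) * (D - wj))

/-- the negative of `∑ w n` -/
def h0 (P : Par) (δ B : L) : L := 3 * (δ + 1) * B + mu P δ

theorem hh_h0 (δ B D : L) : hh P δ B D = 3 * (B + δ + 1) * D + h0 P δ B := by
  unfold hh h0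
  ring

theorem fac_of {δ : L} {w : Fin 3 → L} (h1 : w 0 + w 1 + w 2 = -(3 * δ))
    (h2 : w 0 * w 1 + w 1 * w 2 + w 2 * w 0 = -(algebraMap ℂ L (P.t 3) + algebraMap ℂ L (P.z 3) * δ))
    (h3 : w 0 * w 1 * w 2 = algebraMap ℂ L (P.t 1) + algebraMap ℂ L (P.z 1) * δ) (D : L) :
    ff0 P δ D = (D - w 0) * (D - w 1) * (D - w 2) := by
  unfold ff0 B0 A0
  linear_combination D ^ 2 * h1 - D * h2 + h3

/-- The points of the surface on the conics of the first pencil. -/
theorem on_z {δ B ν D α : L} {w : Fin 3 → L} (hfac : ff0 P δ D = (D - w 0) * (D - w 1) * (D - w 2))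
    (hν : ν ≠ 0) (ha : az ν w D ≠ 0) (ht : tz ν w D α ≠ 0)
    (hc : Cn (3 * (B + δ + 1)) (h0 P δ B) (ff2 P δ B) ν (w 2) (w 1) (w 0) D α = 0)
    (he : z0 P δ B ν (w 1) (w 2) D + z1 P δ B ν (w 1) (w 2) D * α + z2 P B (w 1) (w 2) D * α ^ 2 = 0) :
    eA P (crd δ B D (az ν w D) (tz ν w D α) 0) (crd δ B D (az ν w D) (tz ν w D α) 1)
      (crd δ B D (az ν w D) (tz ν w D α) 2) (crd δ B D (az ν w D) (tz ν w D α) 3) = 0 ∧
    eB P (crd δ B D (az ν w D) (tz ν w D α) 0) (crd δ B D (az ν w D) (tz ν w D α) 1)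
      (crd δ B D (az ν w D) (tz ν w D α) 2) (crd δ B D (az ν w D) (tz ν w D α) 3) = 0 := by
  rw [z_eS w hν] at he
  have hS := (mul_eq_zero.1 he).resolve_left (pow_ne_zero 4 hν)
  have hα : α ≠ 0 := by
    rintro rfl
    apply ht
    unfold tz
    rw [mul_zero, zero_div]
  have hd1 : D - w 1 ≠ 0 := by
    intro h
    apply ha
    unfold az
    rw [h, zero_mul, zero_div]
  have hd2 : D - w 2 ≠ 0 := by
    intro h
    apply ha
    unfold az
    rw [h, mul_zero, zero_div]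
  have hT : ff0 P δ D / az ν w D + tz ν w D α * ff2 P δ B / az ν w D +
      az ν w D ^ 2 / tz ν w D α = hh P δ B D := by
    rw [hfac, hh_h0]
    unfold az tz
    unfold Cn at hc
    field_simp
    linear_combination hc
  refine ⟨?_, ?_⟩
  · rw [eA_crd ht, hS]
  · rw [eB_crd ht ha hT, hS, mul_zero, neg_zero]

/-- The points of the surface on the conics of the second pencil. -/
theorem on_o {δ B ν D α : L} {w : Fin 3 → L} (hfac : ff0 P δ D = (D - w 0) * (D - w 1) * (D - w 2))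
    (hf : ff2 P δ B ≠ 0) (ha : ao w D α ≠ 0) (ht : ot (ff2 P δ B) ν w D α ≠ 0)
    (hc : Cn (3 * (B + δ + 1)) (h0 P δ B) (ff2 P δ B) ν (w 0) (w 2) (w 1) D α = 0)
    (he : o0 P (ff2 P δ B) D + o1 P δ B ν (ff2 P δ B) (w 1) D * α +
      o2 P δ B ν (ff2 P δ B) (w 1) D * α ^ 2 = 0) :
    eA P (crd δ B D (ao w D α) (ot (ff2 P δ B) ν w D α) 0)
      (crd δ B D (ao w D α) (ot (ff2 P δ B) ν w D α) 1)
      (crd δ B D (ao w D α) (ot (ff2 P δ B) ν w D α) 2)
      (crd δ B D (ao w D α) (ot (ff2 P δ B) ν w D α) 3) = 0 ∧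
    eB P (crd δ B D (ao w D α) (ot (ff2 P δ B) ν w D α) 0)
      (crd δ B D (ao w D α) (ot (ff2 P δ B) ν w D α) 1)
      (crd δ B D (ao w D α) (ot (ff2 P δ B) ν w D α) 2)
      (crd δ B D (ao w D α) (ot (ff2 P δ B) ν w D α) 3) = 0 := by
  rw [o_eS w hf] at he
  have hS := (mul_eq_zero.1 he).resolve_left (pow_ne_zero 2 hf)
  have hα : α ≠ 0 := by
    rintro rfl
    apply ha
    unfold ao
    rw [mul_zero]
  have hν : ν ≠ 0 := by
    rintro rfl
    apply ht
    unfold ot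
    rw [mul_zero, zero_div]
  have hd1 : D - w 1 ≠ 0 := by
    intro h
    apply ha
    unfold ao
    rw [h, zero_mul]
  have hT : ff0 P δ D / ao w D α + ot (ff2 P δ B) ν w D α * ff2 P δ B / ao w D α +
      ao w D α ^ 2 / ot (ff2 P δ B) ν w D α = hh P δ B D := by
    rw [hfac, hh_h0]
    unfold ao ot
    unfold Cn at hc
    field_simp
    linear_combination hc
  refine ⟨?_, ?_⟩
  · rw [eA_crd ht, hS]
  · rw [eB_crd ht ha hT, hS, mul_zero, neg_zero]

end chart

end Vale.Agent.P297.H721
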